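import Vale.Agent.P024.H114.Alv3
import Vale.Agent.P024.H644.K10

/-!
Decomposition groups: residue degree one, roots of unity, the cyclotomic characters at alive primes.
-/

namespace Vale.Agent.P024.H114

open scoped NumberField
open IsDedekindDomain NumberField
open Vale.Agent.P024 Vale.Agent.P024.M4

section

variable {E : Type*} [Field E] [CharZero E]

/-- Block [DEG1]. -/
theorem deg1 [Algebra.IsAlgebraic ℚ E] (F : IntermediateField ℚ E) [NumberField F]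
    (v : HeightOneSpectrum (𝓞 F)) (O : ValuationSubring E) (hOv : IsCenter O v) {r : ℕ}
    (hr : r.Prime) (hrO : (r : E) ∈ O.nonunits) (φ : E ≃ₐ[ℚ] E) (hφ' : ActsPow O φ r)
    (hφF : φ ∈ F.fixingSubgroup) : Ideal.absNorm v.asIdeal = r := by
  have hrv : (r : 𝓞 F) ∈ v.asIdeal := by
    rw [hOv]
    simpa using hrO
  obtain ⟨hr', hrv', n, hn, hn'⟩ := resChar_spec v
  have hrr : resChar v = r := prime_unique hr' hr v hrv' hrv
  rw [hrr] at hn'
  have hmax : v.asIdeal.IsMaximal := v.isMaximal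
  have hfin : Finite (𝓞 F ⧸ v.asIdeal) := Ideal.finiteQuotientOfFreeOfNeBot _ v.ne_bot
  let _ : Field (𝓞 F ⧸ v.asIdeal) := Ideal.Quotient.field _
  let _ : Fintype (𝓞 F ⧸ v.asIdeal) := Fintype.ofFinite _
  have hpow : ∀ x : 𝓞 F ⧸ v.asIdeal, x ^ r - x = 0 := by
    intro x
    obtain ⟨x, rfl⟩ := Ideal.Quotient.mk_surjective x
    rw [← map_pow, ← map_sub, Ideal.Quotient.eq_zero_iff_mem, hOv]
    have hxO : algebraMap F E (x : F) ∈ O :=
      coe_mem_valuationSubring O ((RingOfIntegers.mapRingHom (algebraMap F E)) x)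
    have h2 := hφ' _ hxO
    have h3 : φ (algebraMap F E (x : F)) = algebraMap F E (x : F) := by
      rw [IntermediateField.mem_fixingSubgroup_iff] at hφF
      exact hφF _ (x : F).2
    rw [h3] at h2
    have h5 : algebraMap F E ((x ^ r - x : 𝓞 F) : F) = -(algebraMap F E (x : F) -
      algebraMap F E (x : F) ^ r) := by
      simp
    rw [h5, ValuationSubring.mem_nonunits_iff, Valuation.map_neg]
    exact h2
  have hcard : Fintype.card (𝓞 F ⧸ v.asIdeal) ≤ r := by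
    classical
    have h1 : (Polynomial.X ^ r - Polynomial.X : Polynomial (𝓞 F ⧸ v.asIdeal)) ≠ 0 :=
      FiniteField.X_pow_card_sub_X_ne_zero _ hr.one_lt
    have h2 : (Finset.univ : Finset (𝓞 F ⧸ v.asIdeal)) ⊆
        (Polynomial.X ^ r - Polynomial.X : Polynomial (𝓞 F ⧸ v.asIdeal)).roots.toFinset := by
      intro x _
      rw [Multiset.mem_toFinset, Polynomial.mem_roots h1, Polynomial.IsRoot.def]
      simpa using hpow x
    have h3 := Finset.card_le_card h2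
    have h4 := Multiset.toFinset_card_le
      (Polynomial.X ^ r - Polynomial.X : Polynomial (𝓞 F ⧸ v.asIdeal)).roots
    have h5 := Polynomial.card_roots' (Polynomial.X ^ r - Polynomial.X : Polynomial (𝓞 F ⧸ v.asIdeal))
    rw [FiniteField.X_pow_card_sub_X_natDegree_eq _ hr.one_lt] at h5
    rw [Finset.card_univ] at h3
    omega
  have hN : Ideal.absNorm v.asIdeal = Fintype.card (𝓞 F ⧸ v.asIdeal) := by
    rw [Ideal.absNorm_apply, Submodule.cardQuot_apply, Nat.card_eq_fintype_card]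
  rw [← hN, hn'] at hcard
  have h6 : n ≤ 1 := by
    by_contra h
    have h7 : r ^ 2 ≤ r ^ n := Nat.pow_le_pow_right hr.pos (by omega)
    have h8 : r * 2 ≤ r * r := Nat.mul_le_mul_left r hr.two_le
    have h9 := hr.pos
    nlinarith
  have h7 : n = 1 := by omega
  rw [hn', h7, pow_one]

/-- A prime of `ℚ` has a prime norm. -/
theorem absNorm_rat (v : HeightOneSpectrum (𝓞 ℚ)) {r : ℕ} (hr : r.Prime)
    (hrv : (r : 𝓞 ℚ) ∈ v.asIdeal) : Ideal.absNorm v.asIdeal = r := by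
  have h1 : Ideal.absNorm v.asIdeal ∣ Ideal.absNorm (Ideal.span {((r : ℕ) : 𝓞 ℚ)}) := by
    apply Ideal.absNorm_dvd_absNorm_of_le
    rw [Ideal.span_singleton_le_iff_mem]
    exact hrv
  rw [Ideal.absNorm_span_natCast, NumberField.RingOfIntegers.rank, Module.finrank_self,
    pow_one] at h1
  rcases (Nat.dvd_prime hr).mp h1 with h | h
  · exfalso
    apply v.isPrime.ne_top
    rwa [Ideal.absNorm_eq_one_iff] at h
  · exact h

/-- Block [CYC], first half: a decomposition element acts on the roots of unity of order prime to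
the residue characteristic like a power of the Frobenius element. -/
theorem cyc [IsGalois ℚ E] (O : ValuationSubring E) (hO : O ≠ ⊤) {r : ℕ} (hr : r.Prime)
    (hrO : (r : E) ∈ O.nonunits) (y z : E ≃ₐ[ℚ] E) (hy : Stab O y) (hz : Stab O z)
    (hz' : ActsPow O z r) {n : ℕ} (hn : n.Coprime r) :
    (∀ ζ : E, ζ ^ n = 1 → z ζ = ζ ^ r) ∧
    ∃ m : ℕ, (∀ ζ : E, ζ ^ n = 1 → y ζ = ζ ^ (r ^ m)) ∧ ∀ ζ : E, ζ ^ n = 1 → y ζ = (z ^ m) ζ := by
  have hnO : (n : E) ∉ O.nonunits := fun h => not_mem_nonunits_of_coprime O hn h hrO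
  have hn0 : n ≠ 0 := by
    rintro rfl
    exact hnO (by simp)
  have hzζ : ∀ ζ : E, ζ ^ n = 1 → z ζ = ζ ^ r := fun ζ hζ => acts_on_root O z r hz' n hnO ζ hζ
  refine ⟨hzζ, ?_⟩
  set S : Set E := {ζ : E | ζ ^ n = 1} with hS
  have hSfin : S.Finite := by
    classical
    have h1 : S ⊆ ((Polynomial.nthRoots n (1 : E)).toFinset : Set E) := by
      intro ζ hζ
      rw [Finset.mem_coe, Multiset.mem_toFinset, Polynomial.mem_nthRoots (Nat.pos_of_ne_zero hn0)]
      exact hζ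
    exact (Finset.finite_toSet _).subset h1
  let K := IntermediateField.adjoin ℚ S
  have hSfin' : Finite S := hSfin.to_subtype
  have hfd : FiniteDimensional ℚ K :=
    IntermediateField.finiteDimensional_adjoin (S := S) (fun x _ => Algebra.IsIntegral.isIntegral x)
  have hNF : NumberField K := NumberField.of_module_finite ℚ K
  have hbot : NumberField (⊥ : IntermediateField ℚ E) := NumberField.of_module_finite ℚ _
  have hstab : ∀ g : E ≃ₐ[ℚ] E, ∀ y ∈ K, g y ∈ K := by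
    intro g y hy
    have h1 : K.map (g : E →ₐ[ℚ] E) = IntermediateField.adjoin ℚ (g '' S) :=
      IntermediateField.adjoin_map ℚ S (g : E →ₐ[ℚ] E)
    have h2 : g '' S = S := by
      ext ζ
      constructor
      · rintro ⟨ξ, hξ, rfl⟩
        show (g ξ) ^ n = 1
        rw [← map_pow, show ξ ^ n = 1 from hξ, map_one]
      · intro hζ
        refine ⟨g.symm ζ, ?_, g.apply_symm_apply ζ⟩
        show (g.symm ζ) ^ n = 1
        rw [← map_pow, show ζ ^ n = 1 from hζ, map_one]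
    rw [h2] at h1
    have h3 : g y ∈ K.map (g : E →ₐ[ℚ] E) := ⟨y, hy, rfl⟩
    rwa [h1] at h3
  obtain ⟨v, hv⟩ := exists_center (K := ℚ) O hO
  obtain ⟨u, hu⟩ := exists_center (K := (⊥ : IntermediateField ℚ E)) O hO
  have hrv : (r : 𝓞 ℚ) ∈ v.asIdeal := by
    rw [hv]
    simpa using hrO
  have hNu : Ideal.absNorm u.asIdeal = r := by
    rw [TR.absNorm_bot hv hu, absNorm_rat v hr hrv]
  obtain ⟨a, δ, -, hδK, hι⟩ := exists_decomp O hO ⊥ K bot_le u hu z y hz (by rwa [hNu]) hy (by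
      intro y' hy'
      rw [IntermediateField.mem_bot] at hy'
      obtain ⟨c, rfl⟩ := hy'
      exact y.commutes c) (hstab y) (hstab z⁻¹)
  have key : ∀ ζ : E, ζ ^ n = 1 → y ζ = (z ^ a) ζ := by
    intro ζ hζ
    have h1 := acts_on_root O _ 1 hι n hnO ((z ^ a) ζ) (by rw [← map_pow, hζ, map_one])
    rw [pow_one] at h1
    have h2 : δ⁻¹ ((z ^ a) ζ) = (z ^ a) ζ := by
      have h3 := hδK _ (hstab (z ^ a) ζ (IntermediateField.subset_adjoin ℚ S hζ))
      nth_rewrite 1 [← h3]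
      rw [← AlgEquiv.mul_apply, inv_mul_cancel, AlgEquiv.one_apply]
    rw [AlgEquiv.mul_apply, h2, AlgEquiv.mul_apply, ← AlgEquiv.mul_apply (z ^ a)⁻¹,
      inv_mul_cancel, AlgEquiv.one_apply] at h1
    exact h1
  have hpow : ∀ (m : ℕ) (ζ : E), ζ ^ n = 1 → (z ^ m) ζ = ζ ^ (r ^ m) := by
    intro m
    induction m with
    | zero => intro ζ _; simp
    | succ m ih =>
      intro ζ hζ
      rw [pow_succ, AlgEquiv.mul_apply, hzζ ζ hζ, map_pow, ih ζ hζ, ← pow_mul, pow_succ]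
  exact ⟨a, fun ζ hζ => (key ζ hζ).trans (hpow a ζ hζ), key⟩

end

section

variable {F₁ E₁ F₂ E₂ : Type*} [Field F₁] [NumberField F₁] [Field E₁] [Algebra F₁ E₁]
    [IsGalois F₁ E₁] [Field F₂] [NumberField F₂] [Field E₂] [Algebra F₂ E₂] [IsGalois F₂ E₂]

/-- Block [CYC], second half: at an alive prime an element of the decomposition group and its image
act in the same way on the roots of unity of `p`-power order. -/
theorem cyc_alive (hE₁ : SolvablyClosed E₁) (hE₂ : SolvablyClosed E₂)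
    (α : (E₁ ≃ₐ[F₁] E₁) →* (E₂ ≃ₐ[F₂] E₂)) (hα : Continuous α) {p : ℕ} (hp : p.Prime)
    (hp2 : p ≠ 2) (v : HeightOneSpectrum (𝓞 F₁)) (hv : v ∈ Alive α p) (O : ValuationSubring E₁)
    (hO : O ≠ ⊤) (hOv : IsCenter O v) (s : E₁ ≃ₐ[F₁] E₁) (hs : Stab O s) (k c : ℕ)
    (h : ∀ ζ : E₁, ζ ^ (p ^ k) = 1 → s ζ = ζ ^ c) :
    ∀ ζ : E₂, ζ ^ (p ^ k) = 1 → α s ζ = ζ ^ c := by
  have hpf : Fact p.Prime := ⟨hp⟩
  have : CharZero E₁ := charZero_of_injective_algebraMap (algebraMap F₁ E₁).injective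
  have : CharZero E₂ := charZero_of_injective_algebraMap (algebraMap F₂ E₂).injective
  have h1 := TR.eta_stab hE₁ hE₂ α hα hp2 v hv O hO hOv s hs
  have h2 : redu k (eta α p s) = 1 := by rw [h1, map_one]
  rw [redu_eta_iff] at h2
  have hroot₁ : ∀ i, ∃ ζ : E₁, IsPrimitiveRoot ζ (p ^ i) := fun i =>
    hE₁.exists_primitiveRoot _ (pow_pos hp.pos i)
  have hroot₂ : ∀ i, ∃ ζ : E₂, IsPrimitiveRoot ζ (p ^ i) := fun i =>
    hE₂.exists_primitiveRoot _ (pow_pos hp.pos i)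
  rw [← redu_chi_iff hroot₂, h2, redu_chi_iff hroot₁]
  exact h

end

section

/-- The arithmetic at an alive prime, in the form of `M4/Spec`: `φ ^ k` fixes `F`, so the image
of `φ ^ k` acts on the roots of unity of order `p q` as the power `r₂ ^ m`, and
`r ^ k = r₂ ^ m` modulo `p`. -/
theorem pair_arith {E₁ E₂ : Type*} [Field E₁] [CharZero E₁] [IsAlgClosed E₁]
    [Algebra.IsAlgebraic ℚ E₁] [Field E₂] [CharZero E₂] [IsGalois ℚ E₂] (hE₂ : SolvablyClosed E₂)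
    (F : IntermediateField ℚ E₁) [NumberField F]
    (a : (E₁ ≃ₐ[F] E₁) →* (E₂ ≃ₐ[ℚ] E₂)) (ha : Continuous a)
    {p q : ℕ} (hp : p.Prime) (hp2 : p ≠ 2) (hq : q.Prime) (v : HeightOneSpectrum (𝓞 F))
    (hv : v ∈ Alive a p) {O : ValuationSubring E₁} {O₂ : ValuationSubring E₂} {r r₂ : ℕ}
    {φ : E₁ ≃ₐ[ℚ] E₁} {ζ : E₂ ≃ₐ[ℚ] E₂} (hOv : IsCenter O v) (hP : Pair a p O O₂ r r₂ φ ζ)
    (hrq : r₂ ≠ q) (k : ℕ) (s : E₁ ≃ₐ[F] E₁) (hs : s.restrictScalars ℚ = φ ^ k) :
    ∃ m : ℕ, (∀ ξ : E₂, ξ ^ (p * q) = 1 → a s ξ = ξ ^ (r₂ ^ m)) ∧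
      (∀ ξ : E₂, ξ ^ (p * q) = 1 → ζ ξ = ξ ^ r₂) ∧ (r : ZMod p) ^ k = (r₂ : ZMod p) ^ m := by
  have : IsGalois ℚ E₁ := isGalois_rat E₁
  have hE₁ : SolvablyClosed E₁ := solvablyClosed_of_isAlgClosed E₁
  have hsx : ∀ x : E₁, s x = (φ ^ k) x := fun x => by rw [← hs]; rfl
  have hsO : Stab O s := fun x => by
    rw [hsx]
    exact hP.stab₁.pow k x
  have hcop : (p * q).Coprime r₂ := Nat.Coprime.mul_left
    ((Nat.coprime_primes hp hP.prime₂).mpr hP.ne_p₂.symm)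
    ((Nat.coprime_primes hq hP.prime₂).mpr hrq.symm)
  obtain ⟨hζ, m, hm, -⟩ := cyc O₂ hP.ne₂ hP.prime₂ hP.mem₂ (a s) ζ (hP.maps s hsO) hP.stab₂
    hP.acts₂ hcop
  refine ⟨m, hm, hζ, ?_⟩
  have hcop1 : p.Coprime r := (Nat.coprime_primes hp hP.prime₁).mpr hP.ne_p₁.symm
  obtain ⟨hφ, -⟩ := cyc O hP.ne₁ hP.prime₁ hP.mem₁ φ φ hP.stab₁ hP.stab₁ hP.acts₁ hcop1
  have hφk : ∀ (j : ℕ) (ξ : E₁), ξ ^ p = 1 → (φ ^ j) ξ = ξ ^ (r ^ j) := by
    intro j
    induction j with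
    | zero => intro ξ _; simp
    | succ j ih =>
      intro ξ hξ
      rw [pow_succ, AlgEquiv.mul_apply, hφ ξ hξ, map_pow, ih ξ hξ, ← pow_mul, pow_succ]
  have h1 := cyc_alive hE₁ hE₂ a ha hp hp2 v hv O hP.ne₁ hOv s hsO 1 (r ^ k) (fun ξ hξ => by
    rw [pow_one] at hξ
    rw [hsx, hφk k ξ hξ])
  obtain ⟨ξ, hξ⟩ := hE₂.exists_primitiveRoot p hp.pos
  have h2 := h1 ξ (by rw [pow_one]; exact hξ.pow_eq_one)
  have h3 := hm ξ (by rw [pow_mul, hξ.pow_eq_one, one_pow])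
  rw [h2, rootPow_eq_iff_modEq hξ _ _ hp.pos] at h3
  have h4 := (ZMod.natCast_eq_natCast_iff _ _ _).mpr h3
  push_cast at h4
  exact h4

end

end Vale.Agent.P024.H114
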