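import Mathlib.NumberTheory.LSeries.PrimesInAP
import Vale.Agent.P024.Bdl.B2

/-!
Alive primes above an infinite set of rational primes of the target.
-/

namespace Vale.Agent.P024.H114

open scoped NumberField
open IsDedekindDomain NumberField
open Vale.Agent.P024

section

variable {F₁ E₁ F₂ E₂ : Type*} [Field F₁] [NumberField F₁] [Field E₁] [Algebra F₁ E₁]
    [IsGalois F₁ E₁] [Field F₂] [NumberField F₂] [Field E₂] [Algebra F₂ E₂] [IsGalois F₂ E₂]

/-- There is a prime of a number field above every prime number. -/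
theorem exists_above (F : Type*) [Field F] [NumberField F] {r : ℕ} (hr : r.Prime) :
    ∃ u : HeightOneSpectrum (𝓞 F), (r : 𝓞 F) ∈ u.asIdeal := by
  have hnu : ¬ IsUnit ((r : 𝓞 F)) := by
    intro h
    have h1 := (NumberField.isUnit_iff_norm (K := F) (x := (r : 𝓞 F))).mp h
    have h2 : RingOfIntegers.norm ℚ ((r : ℕ) : 𝓞 F) = ((r : 𝓞 ℚ)) ^ (Module.finrank ℚ F) := by
      apply RingOfIntegers.ext
      rw [RingOfIntegers.coe_norm]
      have h3 : ((((r : ℕ) : 𝓞 F)) : F) = algebraMap ℚ F (r : ℚ) := by simp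
      rw [h3, Algebra.norm_algebraMap]
      simp
    rw [h2] at h1
    have h4 : (((r : 𝓞 ℚ) ^ (Module.finrank ℚ F) : 𝓞 ℚ) : ℚ) = (r : ℚ) ^ (Module.finrank ℚ F) := by
      simp
    rw [h4, abs_pow, Nat.abs_cast] at h1
    have h5 : (1 : ℚ) < r := by exact_mod_cast hr.one_lt
    have h6 := one_lt_pow₀ h5 (Module.finrank_pos (R := ℚ) (M := F)).ne'
    exact absurd h1 h6.ne'
  obtain ⟨M, hM, hrM⟩ := Ideal.exists_le_maximal (Ideal.span {(r : 𝓞 F)})
    (by rwa [Ne, Ideal.span_singleton_eq_top])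
  have hmem : (r : 𝓞 F) ∈ M := hrM (Ideal.mem_span_singleton_self _)
  refine ⟨⟨M, hM.isPrime, ?_⟩, hmem⟩
  intro h
  rw [h, Ideal.mem_bot] at hmem
  exact (Nat.cast_ne_zero.mpr hr.ne_zero) hmem

/-- A prime ideal contains at most one prime number. -/
theorem prime_unique {F : Type*} [Field F] [NumberField F] {r s : ℕ} (hr : r.Prime) (hs : s.Prime)
    (u : HeightOneSpectrum (𝓞 F)) (h1 : (r : 𝓞 F) ∈ u.asIdeal) (h2 : (s : 𝓞 F) ∈ u.asIdeal) :
    r = s := by
  by_contra hne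
  have hcop := (Nat.coprime_primes hr hs).mpr hne
  apply u.isPrime.ne_top
  rw [Ideal.eq_top_iff_one]
  have h3 := (Nat.isCoprime_iff_coprime.mpr hcop)
  obtain ⟨a, b, hab⟩ := h3
  have h4 : ((a : ℤ) : 𝓞 F) * (r : 𝓞 F) + ((b : ℤ) : 𝓞 F) * (s : 𝓞 F) = 1 := by
    have h5 := congrArg (fun z : ℤ => (z : 𝓞 F)) hab
    simpa using h5
  rw [← h4]
  exact Ideal.add_mem _ (Ideal.mul_mem_left _ _ h1) (Ideal.mul_mem_left _ _ h2)

/-- Block [ALV]: for every infinite set `R` of prime numbers infinitely many alive primes of `F₁`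
correspond to primes of `E₂` above numbers of `R`. -/
theorem alv (hE₁ : SolvablyClosed E₁) (hE₂ : SolvablyClosed E₂)
    (α : (E₁ ≃ₐ[F₁] E₁) →* (E₂ ≃ₐ[F₂] E₂)) (hα : Continuous α) (hopen : IsOpen (Set.range α))
    {p : ℕ} (hp : p.Prime) (hp2 : p ≠ 2) (R : Set ℕ) (hR : R.Infinite) (hRp : ∀ r ∈ R, r.Prime) :
    {v : HeightOneSpectrum (𝓞 F₁) | v ∈ Alive α p ∧ ∃ r ∈ R, ∃ (O : ValuationSubring E₁)
      (V : ValuationSubring E₂), O ≠ ⊤ ∧ IsCenter O v ∧ V ≠ ⊤ ∧ (r : E₂) ∈ V.nonunits ∧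
      ∀ σ, Stab O σ → Stab V (α σ)}.Infinite := by
  intro hT
  obtain ⟨W, hW, hhit⟩ := exists_hits hE₁ hE₂ α hα hopen hp hp2 _ hT
  have : Nonempty (HeightOneSpectrum (𝓞 F₂)) := ⟨(exists_above F₂ Nat.prime_two).choose⟩
  choose! u hu using fun r (hr : r ∈ R) => exists_above F₂ (hRp r hr)
  have hinj : Set.InjOn u R := by
    intro r hr s hs hrs
    exact prime_unique (hRp r hr) (hRp s hs) (u r) (hu r hr) (hrs ▸ hu s hs)
  obtain ⟨r, hr, hrW⟩ : ∃ r ∈ R, u r ∉ W := by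
    by_contra hcon
    push Not at hcon
    exact hR ((hW.subset (Set.image_subset_iff.mpr hcon)).of_finite_image hinj)
  have : CharZero E₂ := charZero_of_injective_algebraMap (algebraMap F₂ E₂).injective
  have : Algebra.IsAlgebraic ℚ E₂ := Algebra.IsAlgebraic.trans ℚ F₂ E₂
  obtain ⟨V, hV, hVu⟩ := exists_valuationSubring_over (E := E₂) (u r)
  obtain ⟨v, hv, hvT, O, hO, hOv, hst⟩ := hhit (u r) hrW V hV hVu
  apply hvT
  refine ⟨hv, r, hr, O, V, hO, hOv, hV, ?_, hst⟩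
  have h1 := (hVu (r : 𝓞 F₂)).mp (hu r hr)
  simpa using h1

/-- Infinitely many prime numbers are primitive roots modulo two given primes. -/
theorem infinite_primitive {p q : ℕ} (hp : p.Prime) (hq : q.Prime) (hpq : p ≠ q) :
    {r : ℕ | r.Prime ∧ orderOf (r : ZMod p) = p - 1 ∧ orderOf (r : ZMod q) = q - 1}.Infinite := by
  have : Fact p.Prime := ⟨hp⟩
  have : Fact q.Prime := ⟨hq⟩
  have hgen : ∀ (n : ℕ) [Fact n.Prime], ∃ a : ZMod n, IsUnit a ∧ orderOf a = n - 1 := by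
    intro n _
    obtain ⟨g, hg⟩ := IsCyclic.exists_generator (α := (ZMod n)ˣ)
    refine ⟨g, g.isUnit, ?_⟩
    rw [orderOf_units, orderOf_eq_card_of_forall_mem_zpowers hg, Nat.card_eq_fintype_card,
      ZMod.card_units]
  obtain ⟨a, ha, hoa⟩ := hgen p
  obtain ⟨b, hb, hob⟩ := hgen q
  have hcop : Nat.Coprime p q := (Nat.coprime_primes hp hq).mpr hpq
  let e := ZMod.chineseRemainder hcop
  have : NeZero (p * q) := ⟨(Nat.mul_pos hp.pos hq.pos).ne'⟩
  have hu : IsUnit (e.symm (a, b)) := by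
    have h1 : IsUnit ((a, b) : ZMod p × ZMod q) := Prod.isUnit_iff.mpr ⟨ha, hb⟩
    exact h1.map e.symm
  have h := Nat.infinite_setOfPred_prime_and_eq_mod hu
  refine h.mono ?_
  rintro r ⟨hr, hre⟩
  have h2 : e (r : ZMod (p * q)) = (a, b) := by rw [hre, RingEquiv.apply_symm_apply]
  have h3 : e (r : ZMod (p * q)) = ((r : ZMod p), (r : ZMod q)) := by
    rw [map_natCast]
    rfl
  rw [h3, Prod.mk.injEq] at h2
  exact ⟨hr, by rw [h2.1, hoa], by rw [h2.2, hob]⟩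

end

end Vale.Agent.P024.H114
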