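import Vale.Agent.P024.H114.Alv

/-!
Frobenius elements over `ℚ`, and the pigeonhole principle for them.
-/

namespace Vale.Agent.P024.H114

open scoped NumberField
open IsDedekindDomain NumberField
open Vale.Agent.P024

section

variable {E : Type*} [Field E] [CharZero E] [Algebra.IsAlgebraic ℚ E]

omit [CharZero E] [Algebra.IsAlgebraic ℚ E] in
/-- A valuation ring has at most one residue characteristic. -/
theorem resChar_unique (O : ValuationSubring E) {r s : ℕ} (hr : r.Prime) (hs : s.Prime)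
    (h1 : (r : E) ∈ O.nonunits) (h2 : (s : E) ∈ O.nonunits) : r = s := by
  by_contra hne
  obtain ⟨a, b, hab⟩ := Nat.isCoprime_iff_coprime.mpr ((Nat.coprime_primes hr hs).mpr hne)
  have h4 : ((a : ℤ) : E) * (r : E) + ((b : ℤ) : E) * (s : E) = 1 := by
    have h5 := congrArg (fun z : ℤ => (z : E)) hab
    simpa using h5
  rw [ValuationSubring.mem_nonunits_iff] at h1 h2
  have key : ∀ (c : ℤ) (t : ℕ), O.valuation (t : E) < 1 → O.valuation ((c : E) * (t : E)) < 1 := by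
    intro c t ht
    rw [map_mul]
    have hc : O.valuation (c : E) ≤ 1 := (O.valuation_le_one_iff _).mpr (intCast_mem O c)
    exact lt_of_le_of_lt (mul_le_of_le_one_left' hc) ht
  have h6 := O.valuation.map_add_lt (key a r h1) (key b s h2)
  rw [h4, map_one] at h6
  exact lt_irrefl _ h6

/-- The Frobenius element over `ℚ` of a valuation ring. -/
theorem frobQ [IsGalois ℚ E] (O : ValuationSubring E) (hO : O ≠ ⊤) :
    ∃ (r : ℕ) (s : E ≃ₐ[ℚ] E), r.Prime ∧ (r : E) ∈ O.nonunits ∧ Stab O s ∧ ActsPow O s r := by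
  obtain ⟨v, hv⟩ := exists_center (K := ℚ) O hO
  obtain ⟨s, hs, hs'⟩ := exists_frob (K := ℚ) O hO v hv
  obtain ⟨hr, hrv, n, hn, hn'⟩ := resChar_spec v
  have hdvd : Ideal.absNorm v.asIdeal ∣ resChar v := by
    have h1 : Ideal.absNorm v.asIdeal ∣ Ideal.absNorm (Ideal.span {((resChar v : ℕ) : 𝓞 ℚ)}) := by
      apply Ideal.absNorm_dvd_absNorm_of_le
      rw [Ideal.span_singleton_le_iff_mem]
      exact hrv
    have h2 : Ideal.absNorm (Ideal.span {((resChar v : ℕ) : 𝓞 ℚ)}) = resChar v := by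
      rw [Ideal.absNorm_span_natCast, NumberField.RingOfIntegers.rank, Module.finrank_self, pow_one]
    rwa [h2] at h1
  have hcard : Nat.card (𝓞 ℚ ⧸ v.asIdeal) = resChar v := by
    have h1 : Nat.card (𝓞 ℚ ⧸ v.asIdeal) = Ideal.absNorm v.asIdeal := by
      rw [Ideal.absNorm_apply, Submodule.cardQuot_apply]
    rw [h1]
    rcases (Nat.dvd_prime hr).mp hdvd with h | h
    · exfalso
      apply v.isPrime.ne_top
      rwa [Ideal.absNorm_eq_one_iff] at h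
    · exact h
  refine ⟨resChar v, s, hr, ?_, hs, by rwa [hcard] at hs'⟩
  have h1 := (hv (resChar v : 𝓞 ℚ)).mp hrv
  simpa using h1

end

section

variable {E₁ E₂ : Type*} [Field E₁] [CharZero E₁] [IsGalois ℚ E₁] [Field E₂] [CharZero E₂]
    [IsGalois ℚ E₂]

/-- Block [ALV2]: infinitely many alive primes with corresponding Frobenius elements in fixed
cosets. -/
theorem alv2 (F : IntermediateField ℚ E₁) [NumberField F]
    (hE₁ : SolvablyClosed E₁) (hE₂ : SolvablyClosed E₂)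
    (α : (E₁ ≃ₐ[F] E₁) →* (E₂ ≃ₐ[ℚ] E₂)) (hα : Continuous α) (hopen : IsOpen (Set.range α))
    {p : ℕ} (hp : p.Prime) (hp2 : p ≠ 2) (R : Set ℕ) (hR : R.Infinite) (hRp : ∀ r ∈ R, r.Prime)
    (H : Subgroup (E₁ ≃ₐ[ℚ] E₁)) (hH : IsOpen (H : Set (E₁ ≃ₐ[ℚ] E₁)))
    (V₂ : Subgroup (E₂ ≃ₐ[ℚ] E₂)) (hV₂ : IsOpen (V₂ : Set (E₂ ≃ₐ[ℚ] E₂))) :
    ∃ (f : E₁ ≃ₐ[ℚ] E₁) (g : E₂ ≃ₐ[ℚ] E₂),
      {v : HeightOneSpectrum (𝓞 F) | v ∈ Alive α p ∧ ∃ (r₂ r : ℕ) (O : ValuationSubring E₁)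
        (V : ValuationSubring E₂) (φ : E₁ ≃ₐ[ℚ] E₁) (z : E₂ ≃ₐ[ℚ] E₂), r₂ ∈ R ∧ r.Prime ∧
        O ≠ ⊤ ∧ IsCenter O v ∧ (r : E₁) ∈ O.nonunits ∧ V ≠ ⊤ ∧ (r₂ : E₂) ∈ V.nonunits ∧
        (∀ σ, Stab O σ → Stab V (α σ)) ∧ Stab O φ ∧ ActsPow O φ r ∧ Stab V z ∧ ActsPow V z r₂ ∧
        φ⁻¹ * f ∈ H ∧ z⁻¹ * g ∈ V₂}.Infinite := by
  have hinf := alv hE₁ hE₂ α hα hopen hp hp2 R hR hRp
  set A := {v : HeightOneSpectrum (𝓞 F) | v ∈ Alive α p ∧ ∃ r ∈ R, ∃ (O : ValuationSubring E₁)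
      (V : ValuationSubring E₂), O ≠ ⊤ ∧ IsCenter O v ∧ V ≠ ⊤ ∧ (r : E₂) ∈ V.nonunits ∧
      ∀ σ, Stab O σ → Stab V (α σ)} with hA
  have hA' : Infinite A := hinf.to_subtype
  have key : ∀ v : A, ∃ (r₂ r : ℕ) (O : ValuationSubring E₁)
        (V : ValuationSubring E₂) (φ : E₁ ≃ₐ[ℚ] E₁) (z : E₂ ≃ₐ[ℚ] E₂), r₂ ∈ R ∧ r.Prime ∧
        O ≠ ⊤ ∧ IsCenter O v.1 ∧ (r : E₁) ∈ O.nonunits ∧ V ≠ ⊤ ∧ (r₂ : E₂) ∈ V.nonunits ∧
        (∀ σ, Stab O σ → Stab V (α σ)) ∧ Stab O φ ∧ ActsPow O φ r ∧ Stab V z ∧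
        ActsPow V z r₂ := by
    rintro ⟨v, hv, r₂, hr₂, O, V, hO, hOv, hV, hrV, hst⟩
    obtain ⟨r, φ, hr, hrO, hφ, hφ'⟩ := frobQ O hO
    obtain ⟨r', z, hr', hrV', hz, hz'⟩ := frobQ V hV
    obtain rfl := resChar_unique V hr' (hRp r₂ hr₂) hrV' hrV
    exact ⟨r', r, O, V, φ, z, hr₂, hr, hO, hOv, hrO, hV, hrV, hst, hφ, hφ', hz, hz'⟩
  choose r₂ r O V φ z h1 h2 h3 h4 h5 h6 h7 h8 h9 h10 h11 h12 using key
  have hf1 : Finite ((E₁ ≃ₐ[ℚ] E₁) ⧸ H) := Subgroup.quotient_finite_of_isOpen H hH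
  have hf2 : Finite ((E₂ ≃ₐ[ℚ] E₂) ⧸ V₂) := Subgroup.quotient_finite_of_isOpen V₂ hV₂
  obtain ⟨y, hy⟩ := Finite.exists_infinite_fiber (fun v : A =>
    ((QuotientGroup.mk (φ v) : (E₁ ≃ₐ[ℚ] E₁) ⧸ H), (QuotientGroup.mk (z v) : (E₂ ≃ₐ[ℚ] E₂) ⧸ V₂)))
  obtain ⟨y₁, y₂⟩ := y
  obtain ⟨f, rfl⟩ := QuotientGroup.mk_surjective y₁
  obtain ⟨g, rfl⟩ := QuotientGroup.mk_surjective y₂
  refine ⟨f, g, ?_⟩
  have h13 := (Set.infinite_coe_iff.mp hy).image (f := fun v : A => v.1)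
    (Subtype.val_injective.injOn)
  refine h13.mono ?_
  rintro _ ⟨v, hv, rfl⟩
  have hv' := Prod.mk.inj (show _ = _ from hv)
  refine ⟨v.2.1, r₂ v, r v, O v, V v, φ v, z v, h1 v, h2 v, h3 v, h4 v, h5 v, h6 v, h7 v, h8 v,
    h9 v, h10 v, h11 v, h12 v, ?_, ?_⟩
  · exact QuotientGroup.eq.mp hv'.1
  · exact QuotientGroup.eq.mp hv'.2

end

end Vale.Agent.P024.H114
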