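import Vale.Agent.P024.H114.Alv2
import Vale.Agent.P024.M4.Spec

/-!
The alive primes with their Frobenius elements, in the form of `M4/Spec`.
-/

namespace Vale.Agent.P024.H114

open scoped NumberField
open IsDedekindDomain NumberField
open Vale.Agent.P024 Vale.Agent.P024.M4

theorem solvablyClosed_of_isAlgClosed (E : Type*) [Field E] [IsAlgClosed E] : SolvablyClosed E := by
  intro M _ _
  exact IntermediateField.eq_bot_of_isAlgClosed_of_isAlgebraic M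

theorem isGalois_rat (E : Type*) [Field E] [CharZero E] [IsAlgClosed E] [Algebra.IsAlgebraic ℚ E] :
    IsGalois ℚ E := by
  have h1 : IsAlgClosure ℚ E := ⟨inferInstance, inferInstance⟩
  have h2 : Normal ℚ E := IsAlgClosure.normal ℚ E
  exact ⟨⟩

/-- Block [ALV2] in the form of `M4/Spec`. -/
theorem alv3 {E₁ E₂ : Type*} [Field E₁] [CharZero E₁] [IsAlgClosed E₁] [Algebra.IsAlgebraic ℚ E₁]
    [Field E₂] [CharZero E₂] [IsGalois ℚ E₂] (hE₂ : SolvablyClosed E₂)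
    (F : IntermediateField ℚ E₁) [NumberField F]
    (a : (E₁ ≃ₐ[F] E₁) →* (E₂ ≃ₐ[ℚ] E₂)) (ha : Continuous a) (hopen : IsOpen (Set.range a))
    {p q : ℕ} (hp : p.Prime) (hp2 : p ≠ 2) (hq : q.Prime) (hpq : p ≠ q)
    (H : Subgroup (E₁ ≃ₐ[ℚ] E₁)) [hHn : H.Normal] (hH : IsOpen (H : Set (E₁ ≃ₐ[ℚ] E₁)))
    (V : Subgroup (E₂ ≃ₐ[ℚ] E₂)) [hVn : V.Normal] (hV : IsOpen (V : Set (E₂ ≃ₐ[ℚ] E₂))) :
    ∃ (f : E₁ ≃ₐ[ℚ] E₁) (z : E₂ ≃ₐ[ℚ] E₂),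
      {v : HeightOneSpectrum (𝓞 F) | v ∈ Alive a p ∧ ∃ O O₂ r r₂ φ ζ, IsCenter O v ∧
        Pair a p O O₂ r r₂ φ ζ ∧ r₂ ≠ q ∧ orderOf (r₂ : ZMod p) = p - 1 ∧
        orderOf (r₂ : ZMod q) = q - 1 ∧ φ * f⁻¹ ∈ H ∧ ζ * z⁻¹ ∈ V}.Infinite := by
  have : IsGalois ℚ E₁ := isGalois_rat E₁
  have hE₁ : SolvablyClosed E₁ := solvablyClosed_of_isAlgClosed E₁
  have hR := (infinite_primitive hp hq hpq).sdiff (Set.toFinite {p, q})
  obtain ⟨f, g, hfg⟩ := alv2 F hE₁ hE₂ a ha hopen hp hp2 _ hR (fun r hr => hr.1.1) H hH V hV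
  refine ⟨f, g, hfg.mono ?_⟩
  rintro v ⟨hv, r₂, r, O, W, φ, z, ⟨⟨hr₂, hr₂p, hr₂q⟩, hne⟩, hr, hO, hOv, hrO, hW, hrW, hst, hφ,
    hφ', hz, hz', hφf, hzg⟩
  have hne' : r₂ ≠ p ∧ r₂ ≠ q := by
    simpa [not_or] using hne
  refine ⟨hv, O, W, r, r₂, φ, z, hOv, ?_, hne'.2, hr₂p, hr₂q, ?_, ?_⟩
  · refine ⟨hO, hW, hst, hr, hr₂, ?_, hne'.1, hrO, hrW, hφ, hz, hφ', hz'⟩
    rintro rfl
    apply hv.1
    rw [hOv]
    simpa using hrO
  · have h1 := H.inv_mem hφf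
    rw [mul_inv_rev, inv_inv] at h1
    have h2 := hHn.conj_mem _ h1 f
    rwa [← mul_assoc, mul_inv_cancel, one_mul] at h2
  · have h1 := V.inv_mem hzg
    rw [mul_inv_rev, inv_inv] at h1
    have h2 := hVn.conj_mem _ h1 g
    rwa [← mul_assoc, mul_inv_cancel, one_mul] at h2

/-- Block [ALV] in the form of `M4/Spec`. -/
theorem propALV : PropALV := by
  intro E₁ E₂ _ _ _ _ _ _ _ hE₂ F _ a ha hopen p hp hp2
  have : IsGalois ℚ E₁ := isGalois_rat E₁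
  have hE₁ : SolvablyClosed E₁ := solvablyClosed_of_isAlgClosed E₁
  by_contra hcon
  push Not at hcon
  obtain ⟨W, hW, hhit⟩ := exists_hits hE₁ hE₂ a ha hopen hp hp2 ∅ Set.finite_empty
  have : Nonempty (HeightOneSpectrum (𝓞 ℚ)) := ⟨(exists_above ℚ Nat.prime_two).choose⟩
  let B : Set ℕ := {r | r.Prime ∧ ∃ u ∈ W, (r : 𝓞 ℚ) ∈ u.asIdeal}
  have hB : B.Finite := by
    have h1 : B ⊆ ⋃ u ∈ W, {r : ℕ | r.Prime ∧ (r : 𝓞 ℚ) ∈ u.asIdeal} := by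
      rintro r ⟨hr, u, hu, hru⟩
      exact Set.mem_biUnion hu ⟨hr, hru⟩
    refine (hW.biUnion fun u _ => Set.Subsingleton.finite ?_).subset h1
    rintro r ⟨hr, hru⟩ s ⟨hs, hsu⟩
    exact prime_unique hr hs u hru hsu
  obtain ⟨r, hr, hrB, h⟩ := hcon B hB
  obtain ⟨u, hu⟩ := exists_above ℚ hr
  obtain ⟨V, hV, hVu⟩ := exists_valuationSubring_over (E := E₂) u
  obtain ⟨v, hv, -, O, hO, hOv, hst⟩ := hhit u (fun h => hrB ⟨hr, u, h, hu⟩) V hV hVu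
  refine h v hv O V hO hV hOv hst ?_
  have h1 := (hVu (r : 𝓞 ℚ)).mp hu
  simpa using h1

end Vale.Agent.P024.H114
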