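import Vale.Agent.P024.H114.Match

/-!
The main theorems for fields closed under `l`-th roots. The level and core steps are adapted from
the corresponding statements of `Vale.Agent.P024.Bdl.B2` for fields containing all roots of unity.
-/

namespace Vale.Agent.P024.H114

open Vale.Agent.P024
open scoped NumberField
open IsDedekindDomain IntermediateField

section Level

variable {F₁ E₁ F₂ E₂ : Type*} [Field F₁] [NumberField F₁] [Field E₁]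
    [Algebra F₁ E₁] [IsGalois F₁ E₁] [Field F₂] [NumberField F₂] [Field E₂] [Algebra F₂ E₂]
    [IsGalois F₂ E₂]

omit [NumberField F₁] [NumberField F₂] in
theorem exists_level (α : (E₁ ≃ₐ[F₁] E₁) →* (E₂ ≃ₐ[F₂] E₂)) (hα : Continuous α) {l : ℕ}
    (hl : l.Prime) (hroot₁ : ∀ n : ℕ, ∃ z : E₁, IsPrimitiveRoot z (l ^ n))
    (hroot₂ : ∀ n : ℕ, ∃ z : E₂, IsPrimitiveRoot z (l ^ n))
    (U : Subgroup (E₁ ≃ₐ[F₁] E₁)) (hU : IsOpen (U : Set (E₁ ≃ₐ[F₁] E₁)))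
    (L₂ : IntermediateField F₂ E₂) (hL₂ : FiniteDimensional F₂ L₂) :
    ∃ (K₁ : IntermediateField F₁ E₁) (K₂ : IntermediateField F₂ E₂), FiniteDimensional F₁ K₁ ∧
      FiniteDimensional F₂ K₂ ∧ L₂ ≤ K₂ ∧
      (∀ g : E₁ ≃ₐ[F₁] E₁, (∀ z ∈ K₁, g z = z) → g ∈ U) ∧
      (∀ g : E₁ ≃ₐ[F₁] E₁, (∀ z ∈ K₁, g z = z) → ∀ x ∈ K₂, (α g) x = x) ∧
      (∀ z : E₁, z ^ (l ^ 2) = 1 → z ∈ K₁) ∧ (∀ z : E₂, z ^ (l ^ 2) = 1 → z ∈ K₂) := by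
  obtain ⟨ζ₁, hζ₁⟩ := hroot₁ 2
  obtain ⟨ζ₂, hζ₂⟩ := hroot₂ 2
  have hfin₁ : FiniteDimensional F₁ F₁⟮ζ₁⟯ :=
    adjoin.finiteDimensional (Algebra.IsIntegral.isIntegral ζ₁)
  have hfin₂ : FiniteDimensional F₂ F₂⟮ζ₂⟯ :=
    adjoin.finiteDimensional (Algebra.IsIntegral.isIntegral ζ₂)
  set K₂ : IntermediateField F₂ E₂ := L₂ ⊔ F₂⟮ζ₂⟯ with hK₂def
  have hK₂fin : FiniteDimensional F₂ K₂ := finiteDimensional_sup L₂ F₂⟮ζ₂⟯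
  have hVopen : IsOpen (K₂.fixingSubgroup : Set (E₂ ≃ₐ[F₂] E₂)) := K₂.fixingSubgroup_isOpen
  have hWopen : IsOpen ((U : Set (E₁ ≃ₐ[F₁] E₁)) ∩ α ⁻¹' (K₂.fixingSubgroup : Set _)) :=
    hU.inter (hVopen.preimage hα)
  have hWmem : (U : Set (E₁ ≃ₐ[F₁] E₁)) ∩ α ⁻¹' (K₂.fixingSubgroup : Set _) ∈ nhds 1 :=
    hWopen.mem_nhds ⟨U.one_mem, by
      simp only [Set.mem_preimage, map_one]
      exact K₂.fixingSubgroup.one_mem⟩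
  rw [krullTopology_mem_nhds_one_iff] at hWmem
  obtain ⟨M, hMfin, hM⟩ := hWmem
  set K₁ : IntermediateField F₁ E₁ := M ⊔ F₁⟮ζ₁⟯ with hK₁def
  have hK₁fin : FiniteDimensional F₁ K₁ := finiteDimensional_sup M F₁⟮ζ₁⟯
  have hmem : ∀ g : E₁ ≃ₐ[F₁] E₁, (∀ z ∈ K₁, g z = z) → g ∈ U ∧ ∀ x ∈ K₂, (α g) x = x := by
    intro g hg
    have h1 : g ∈ M.fixingSubgroup := by
      rw [IntermediateField.mem_fixingSubgroup_iff]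
      intro x hx
      exact hg x (le_sup_left (a := M) (b := F₁⟮ζ₁⟯) hx)
    obtain ⟨h2, h3⟩ := hM h1
    refine ⟨h2, ?_⟩
    have h4 : α g ∈ K₂.fixingSubgroup := h3
    rw [IntermediateField.mem_fixingSubgroup_iff] at h4
    exact h4
  have hroots₁ : ∀ z : E₁, z ^ (l ^ 2) = 1 → z ∈ K₁ := by
    intro z hz
    have : NeZero (l ^ 2) := ⟨(pow_pos hl.pos 2).ne'⟩
    obtain ⟨i, _, rfl⟩ := hζ₁.eq_pow_of_pow_eq_one hz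
    exact pow_mem (le_sup_right (a := M) (b := F₁⟮ζ₁⟯) (mem_adjoin_simple_self F₁ ζ₁)) i
  have hroots₂ : ∀ z : E₂, z ^ (l ^ 2) = 1 → z ∈ K₂ := by
    intro z hz
    have : NeZero (l ^ 2) := ⟨(pow_pos hl.pos 2).ne'⟩
    obtain ⟨i, _, rfl⟩ := hζ₂.eq_pow_of_pow_eq_one hz
    exact pow_mem (le_sup_right (a := L₂) (b := F₂⟮ζ₂⟯) (mem_adjoin_simple_self F₂ ζ₂)) i
  exact ⟨K₁, K₂, hK₁fin, hK₂fin, le_sup_left, fun g hg => (hmem g hg).1, fun g hg => (hmem g hg).2,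
    hroots₁, hroots₂⟩

theorem core_rev (α : (E₁ ≃ₐ[F₁] E₁) →* (E₂ ≃ₐ[F₂] E₂)) (hα : Continuous α)
    {l : ℕ} (hl : l.Prime) (hl2 : l ≠ 2)
    (hpow₁ : ∀ x : E₁, ∃ y : E₁, y ^ l = x) (hpow₂ : ∀ x : E₂, ∃ y : E₂, y ^ l = x)
    (hroot₁ : ∀ n : ℕ, ∃ z : E₁, IsPrimitiveRoot z (l ^ n))
    (hroot₂ : ∀ n : ℕ, ∃ z : E₂, IsPrimitiveRoot z (l ^ n))
    (hGK₁ : ∀ (K : IntermediateField F₁ E₁) [NumberField K], (∀ z : E₁, z ^ l = 1 → z ∈ K) →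
      GK K l)
    (hGK₂ : ∀ (K : IntermediateField F₂ E₂) [NumberField K], (∀ z : E₂, z ^ l = 1 → z ∈ K) →
      GK K l)
    (U : Subgroup (E₁ ≃ₐ[F₁] E₁)) (hU : IsOpen (U : Set (E₁ ≃ₐ[F₁] E₁)))
    (Q : Set ℕ) (hQ : MeetsSplit Q)
    (hker : ∀ g ∈ U, ∀ p : ℕ, p.Prime → p ∈ Q → l ∣ p - 1 →
      FixesSub l p (α g) → FixesSub l p g)
    (L₂ : IntermediateField F₂ E₂) (hL₂ : FiniteDimensional F₂ L₂) :
    ∃ (K₁ : IntermediateField F₁ E₁) (j : L₂ →+* E₁), FiniteDimensional F₁ K₁ ∧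
        ∀ x : L₂, KMatch α l K₁ (x : E₂) (j x) := by
  have : CharZero E₁ := charZero_of_injective_algebraMap (algebraMap F₁ E₁).injective
  have : CharZero E₂ := charZero_of_injective_algebraMap (algebraMap F₂ E₂).injective
  have : Algebra.IsAlgebraic ℚ E₁ := Algebra.IsAlgebraic.trans ℚ F₁ E₁
  have : Algebra.IsAlgebraic ℚ E₂ := Algebra.IsAlgebraic.trans ℚ F₂ E₂
  obtain ⟨K₁, K₂, hK₁, hK₂, hLK, hKU, hαK, hμ₁, hμ₂⟩ :=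
    exists_level α hα hl hroot₁ hroot₂ U hU L₂ hL₂
  have : NumberField K₁ := NumberField.of_module_finite F₁ K₁
  have : NumberField K₂ := NumberField.of_module_finite F₂ K₂
  obtain ⟨ζ₁, hζ₁⟩ : ∃ ζ₁ : E₁, IsPrimitiveRoot ζ₁ l := by simpa using hroot₁ 1
  obtain ⟨ζ₂, hζ₂⟩ : ∃ ζ₂ : E₂, IsPrimitiveRoot ζ₂ l := by simpa using hroot₂ 1
  have hl₁ : ∀ z : E₁, z ^ l = 1 → z ∈ K₁ := fun z hz =>
    hμ₁ z (by rw [pow_two, pow_mul, hz, one_pow])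
  have hl₂ : ∀ z : E₂, z ^ l = 1 → z ∈ K₂ := fun z hz =>
    hμ₂ z (by rw [pow_two, pow_mul, hz, one_pow])
  have hζ₁K : ζ₁ ∈ K₁ := hl₁ ζ₁ hζ₁.pow_eq_one
  have hζ₂K : ζ₂ ∈ K₂ := hl₂ ζ₂ hζ₂.pow_eq_one
  have hz₁ : IsPrimitiveRoot (⟨ζ₁, hζ₁K⟩ : K₁) l :=
    IsPrimitiveRoot.of_map_of_injective (f := algebraMap K₁ E₁) hζ₁ (algebraMap K₁ E₁).injective
  have hz₂ : IsPrimitiveRoot (⟨ζ₂, hζ₂K⟩ : K₂) l :=
    IsPrimitiveRoot.of_map_of_injective (f := algebraMap K₂ E₂) hζ₂ (algebraMap K₂ E₂).injective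
  obtain ⟨ξ, hξ⟩ := hroot₁ 2
  obtain ⟨ξ', hξ'⟩ := hroot₂ 2
  obtain ⟨κ, S, hκ, hsym⟩ := transfer_rev α hα K₁ K₂ hαK hl hl2 hpow₁ hpow₂
    hroot₂ ⟨ζ₁, hζ₁K⟩ hz₁ ⟨ζ₂, hζ₂K⟩ hz₂ ⟨ξ, hμ₁ ξ hξ.pow_eq_one, hξ⟩
    ⟨ξ', hμ₂ ξ' hξ'.pow_eq_one, hξ'⟩ Q
    (fun p hp hpQ hlp g hg => hker g (hKU g hg) p hp hpQ hlp)
    (hGK₁ K₁ hl₁) (hGK₂ K₂ hl₂)
  obtain ⟨j, c, T, hc, hT⟩ := global_step_rev_dens hl hz₁ hz₂ κ hκ.ne_zero Q hQ S hsym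
  obtain ⟨N₁, hN₁, hmatch⟩ := match_of_kappa α hl hpow₁ K₁ K₂ hζ₁ hζ₁K hζ₂ hαK κ
    (fun x hx X hX b hb g hg e he => hκ.spec x hx X b hX hb g hg e he) j c hc T hT
  refine ⟨N₁, (algebraMap K₁ E₁).comp (j.comp (IntermediateField.inclusion hLK).toRingHom), hN₁, ?_⟩
  intro x
  exact hmatch (IntermediateField.inclusion hLK x)

theorem core_open (α : (E₁ ≃ₐ[F₁] E₁) →* (E₂ ≃ₐ[F₂] E₂)) (hα : Continuous α)
    (hopen : IsOpen (Set.range α))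
    {l : ℕ} (hl : l.Prime) (hl2 : l ≠ 2)
    (hpow₁ : ∀ x : E₁, ∃ y : E₁, y ^ l = x) (hpow₂ : ∀ x : E₂, ∃ y : E₂, y ^ l = x)
    (hroot₁ : ∀ n : ℕ, ∃ z : E₁, IsPrimitiveRoot z (l ^ n))
    (hroot₂ : ∀ n : ℕ, ∃ z : E₂, IsPrimitiveRoot z (l ^ n))
    (hGK₁ : ∀ (K : IntermediateField F₁ E₁) [NumberField K], (∀ z : E₁, z ^ l = 1 → z ∈ K) →
      GK K l)
    (hGK₂ : ∀ (K : IntermediateField F₂ E₂) [NumberField K], (∀ z : E₂, z ^ l = 1 → z ∈ K) →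
      GK K l)
    (U : Subgroup (E₁ ≃ₐ[F₁] E₁)) (hU : IsOpen (U : Set (E₁ ≃ₐ[F₁] E₁)))
    (Q : Set ℕ) (hQ : MeetsSplit Q)
    (hker : ∀ g ∈ U, ∀ p : ℕ, p.Prime → p ∈ Q → l ∣ p - 1 →
      FixesSub l p g → FixesSub l p (α g))
    (L₂ : IntermediateField F₂ E₂) (hL₂ : FiniteDimensional F₂ L₂) :
    ∃ (K₁ : IntermediateField F₁ E₁) (j : L₂ →+* E₁), FiniteDimensional F₁ K₁ ∧
        ∀ x : L₂, KMatch α l K₁ (x : E₂) (j x) := by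
  have : CharZero E₁ := charZero_of_injective_algebraMap (algebraMap F₁ E₁).injective
  have : CharZero E₂ := charZero_of_injective_algebraMap (algebraMap F₂ E₂).injective
  have : Algebra.IsAlgebraic ℚ E₁ := Algebra.IsAlgebraic.trans ℚ F₁ E₁
  have : Algebra.IsAlgebraic ℚ E₂ := Algebra.IsAlgebraic.trans ℚ F₂ E₂
  obtain ⟨K₁, K₂, hK₁, hK₂, hLK, hKU, hαK, hμ₁, hμ₂⟩ :=
    exists_level α hα hl hroot₁ hroot₂ U hU L₂ hL₂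
  have : NumberField K₁ := NumberField.of_module_finite F₁ K₁
  have : NumberField K₂ := NumberField.of_module_finite F₂ K₂
  obtain ⟨ζ₁, hζ₁⟩ : ∃ ζ₁ : E₁, IsPrimitiveRoot ζ₁ l := by simpa using hroot₁ 1
  obtain ⟨ζ₂, hζ₂⟩ : ∃ ζ₂ : E₂, IsPrimitiveRoot ζ₂ l := by simpa using hroot₂ 1
  have hl₁ : ∀ z : E₁, z ^ l = 1 → z ∈ K₁ := fun z hz =>
    hμ₁ z (by rw [pow_two, pow_mul, hz, one_pow])
  have hl₂ : ∀ z : E₂, z ^ l = 1 → z ∈ K₂ := fun z hz =>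
    hμ₂ z (by rw [pow_two, pow_mul, hz, one_pow])
  have hζ₁K : ζ₁ ∈ K₁ := hl₁ ζ₁ hζ₁.pow_eq_one
  have hζ₂K : ζ₂ ∈ K₂ := hl₂ ζ₂ hζ₂.pow_eq_one
  have hz₁ : IsPrimitiveRoot (⟨ζ₁, hζ₁K⟩ : K₁) l :=
    IsPrimitiveRoot.of_map_of_injective (f := algebraMap K₁ E₁) hζ₁ (algebraMap K₁ E₁).injective
  have hz₂ : IsPrimitiveRoot (⟨ζ₂, hζ₂K⟩ : K₂) l :=
    IsPrimitiveRoot.of_map_of_injective (f := algebraMap K₂ E₂) hζ₂ (algebraMap K₂ E₂).injective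
  obtain ⟨ξ, hξ⟩ := hroot₁ 2
  obtain ⟨ξ', hξ'⟩ := hroot₂ 2
  obtain ⟨κ, S, hκ, hsym⟩ := transfer_open α hα
    (fun V hV => isOpen_map_of_isOpen_range α hα hopen V hV) K₁ K₂ hαK hl hl2 hpow₁ hpow₂
    hroot₂ ⟨ζ₁, hζ₁K⟩ hz₁ ⟨ζ₂, hζ₂K⟩ hz₂ ⟨ξ, hμ₁ ξ hξ.pow_eq_one, hξ⟩
    ⟨ξ', hμ₂ ξ' hξ'.pow_eq_one, hξ'⟩ Q
    (fun p hp hpQ hlp g hg => hker g (hKU g hg) p hp hpQ hlp)
    (hGK₁ K₁ hl₁) (hGK₂ K₂ hl₂)
  obtain ⟨j, c, T, hc, hT⟩ := global_step_dens hl hz₁ hz₂ κ hκ.ne_zero Q hQ S hsym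
  obtain ⟨N₁, hN₁, hmatch⟩ := match_of_kappa α hl hpow₁ K₁ K₂ hζ₁ hζ₁K hζ₂ hαK κ
    (fun x hx X hX b hb g hg e he => hκ.spec x hx X b hX hb g hg e he) j c hc T hT
  refine ⟨N₁, (algebraMap K₁ E₁).comp (j.comp (IntermediateField.inclusion hLK).toRingHom), hN₁, ?_⟩
  intro x
  exact hmatch (IntermediateField.inclusion hLK x)

/-- Any continuous homomorphism, one odd prime `l`, one open subgroup `U`, the primes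
`p ≡ 1 mod l` in `Q`. -/
theorem induced_A {l : ℕ} (hl : l.Prime) (hl2 : l ≠ 2) (hE₁ : RootClosed l E₁)
    (hE₂ : RootClosed l E₂) (α : (E₁ ≃ₐ[F₁] E₁) →* (E₂ ≃ₐ[F₂] E₂)) (hα : Continuous α)
    (U : Subgroup (E₁ ≃ₐ[F₁] E₁)) (hU : IsOpen (U : Set (E₁ ≃ₐ[F₁] E₁)))
    (Q : Set ℕ) (hQ : MeetsSplit Q)
    (hker : ∀ g ∈ U, ∀ p : ℕ, p.Prime → p ∈ Q → l ∣ p - 1 →
      FixesSub l p (α g) → FixesSub l p g) :
    ∃ j : E₂ →+* E₁, ∀ (g : E₁ ≃ₐ[F₁] E₁) (x : E₂), g (j x) = j ((α g) x) := by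
  have : CharZero E₁ := charZero_of_injective_algebraMap (algebraMap F₁ E₁).injective
  have : CharZero E₂ := charZero_of_injective_algebraMap (algebraMap F₂ E₂).injective
  obtain ⟨ζ₁, hζ₁⟩ := hE₁.1
  exact glue396 hl hE₁.2 hE₂.2 hζ₁ (fun K₂ hK₂ => core_rev α hα hl hl2 hE₁.2 hE₂.2
    (hE₁.exists_primitiveRoot hl) (hE₂.exists_primitiveRoot hl)
    (fun K _ hK => gk_of_rootClosed K hl hE₁ hK) (fun K _ hK => gk_of_rootClosed K hl hE₂ hK)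
    U hU Q hQ hker K₂ hK₂)

/-- Continuous homomorphisms with open image, with the reverse implication. -/
theorem induced_B {l : ℕ} (hl : l.Prime) (hl2 : l ≠ 2) (hE₁ : RootClosed l E₁)
    (hE₂ : RootClosed l E₂) (α : (E₁ ≃ₐ[F₁] E₁) →* (E₂ ≃ₐ[F₂] E₂)) (hα : Continuous α)
    (hopen : IsOpen (Set.range α))
    (U : Subgroup (E₁ ≃ₐ[F₁] E₁)) (hU : IsOpen (U : Set (E₁ ≃ₐ[F₁] E₁)))
    (Q : Set ℕ) (hQ : MeetsSplit Q)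
    (hker : ∀ g ∈ U, ∀ p : ℕ, p.Prime → p ∈ Q → l ∣ p - 1 →
      FixesSub l p g → FixesSub l p (α g)) :
    ∃ j : E₂ →+* E₁, ∀ (g : E₁ ≃ₐ[F₁] E₁) (x : E₂), g (j x) = j ((α g) x) := by
  have : CharZero E₁ := charZero_of_injective_algebraMap (algebraMap F₁ E₁).injective
  have : CharZero E₂ := charZero_of_injective_algebraMap (algebraMap F₂ E₂).injective
  obtain ⟨ζ₁, hζ₁⟩ := hE₁.1
  exact glue396 hl hE₁.2 hE₂.2 hζ₁ (fun K₂ hK₂ => core_open α hα hopen hl hl2 hE₁.2 hE₂.2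
    (hE₁.exists_primitiveRoot hl) (hE₂.exists_primitiveRoot hl)
    (fun K _ hK => gk_of_rootClosed K hl hE₁ hK) (fun K _ hK => gk_of_rootClosed K hl hE₂ hK)
    U hU Q hQ hker K₂ hK₂)

end Level

end Vale.Agent.P024.H114
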