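import Vale.Agent.P024.Bdl.B2
import Mathlib.NumberTheory.Cyclotomic.Gal

/-!
The subfield of prime degree `l` of the field of `p`-th roots of unity.
-/

namespace Vale.Agent.P024.H114

open IsCyclotomicExtension

/-- `g` fixes the subfield of degree `l` of the field of `p`-th roots of unity, wherever this
subfield is embedded in `E`. -/
def FixesSub (l p : ℕ) {F E : Type*} [Field F] [Field E] [Algebra F E] (g : E ≃ₐ[F] E) : Prop :=
  ∀ C : IntermediateField ℚ (CyclotomicField p ℚ), Module.finrank ℚ C = l →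
    ∀ (f : C →+* E) (c : C), g (f c) = f c

section Cyc

variable {p : ℕ} [hp : Fact p.Prime]

local instance : NeZero p := ⟨hp.out.ne_zero⟩

instance isCycExt : IsCyclotomicExtension {p} ℚ (CyclotomicField p ℚ) := by
  have hn : NeZero ((p : ℕ) : ℚ) := ⟨by exact_mod_cast hp.out.ne_zero⟩
  have h := CyclotomicField.isCyclotomicExtension p ℚ
  convert! h

theorem irr : Irreducible (Polynomial.cyclotomic p ℚ) :=
  Polynomial.cyclotomic.irreducible_rat hp.out.pos

theorem finrank_cyc : Module.finrank ℚ (CyclotomicField p ℚ) = p - 1 := by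
  rw [IsCyclotomicExtension.finrank (n := p) (CyclotomicField p ℚ) irr,
    Nat.totient_prime hp.out]

instance : IsGalois ℚ (CyclotomicField p ℚ) := IsCyclotomicExtension.isGalois {p} ℚ _

instance : FiniteDimensional ℚ (CyclotomicField p ℚ) :=
  IsCyclotomicExtension.finiteDimensional {p} ℚ _

theorem isCyclic_aut : IsCyclic (CyclotomicField p ℚ ≃ₐ[ℚ] CyclotomicField p ℚ) := by
  have e := autEquivPow (CyclotomicField p ℚ) (irr (p := p))
  have h : IsCyclic (ZMod p)ˣ := inferInstance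
  exact isCyclic_of_injective e.toMonoidHom e.injective

/-- in the cyclic Galois group of the field of `p`-th roots of unity, the automorphisms fixing the
subfield of degree `l` are those killed by `(p - 1) / l` -/
theorem fix_iff_pow {l : ℕ} (hl : 0 < l) (hlp : l ∣ p - 1)
    (C : IntermediateField ℚ (CyclotomicField p ℚ)) (hC : Module.finrank ℚ C = l)
    (σ : CyclotomicField p ℚ ≃ₐ[ℚ] CyclotomicField p ℚ) :
    (∀ c ∈ C, σ c = c) ↔ σ ^ ((p - 1) / l) = 1 := by
  classical
  have hcyc := isCyclic_aut (p := p)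
  have hcard : Nat.card C.fixingSubgroup = (p - 1) / l := by
    rw [IsGalois.card_fixingSubgroup_eq_finrank]
    have h1 := Module.finrank_mul_finrank ℚ C (CyclotomicField p ℚ)
    rw [hC, finrank_cyc] at h1
    rw [← h1, Nat.mul_div_cancel_left _ hl]
  have hp1 : 0 < p - 1 := by have := hp.out.two_le; omega
  have hn : 0 < (p - 1) / l := Nat.div_pos (Nat.le_of_dvd hp1 hlp) hl
  have hle := IsCyclic.card_pow_eq_one_le (α := CyclotomicField p ℚ ≃ₐ[ℚ] CyclotomicField p ℚ) hn
  have hsub : ∀ τ ∈ C.fixingSubgroup, τ ^ ((p - 1) / l) = 1 := by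
    intro τ hτ
    have h1 : (⟨τ, hτ⟩ : C.fixingSubgroup) ^ Nat.card C.fixingSubgroup = 1 := pow_card_eq_one'
    rw [hcard] at h1
    exact congrArg Subtype.val h1
  have hfix : (∀ c ∈ C, σ c = c) ↔ σ ∈ C.fixingSubgroup := by
    rw [IntermediateField.mem_fixingSubgroup_iff]
  rw [hfix]
  refine ⟨hsub σ, fun h => ?_⟩
  have hfin : Fintype C.fixingSubgroup := Fintype.ofFinite _
  have h2 : (Finset.univ.filter fun τ => τ ∈ C.fixingSubgroup) =
      Finset.univ.filter fun τ : CyclotomicField p ℚ ≃ₐ[ℚ] CyclotomicField p ℚ =>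
        τ ^ ((p - 1) / l) = 1 := by
    refine Finset.eq_of_subset_of_card_le ?_ ?_
    · intro τ hτ
      rw [Finset.mem_filter] at hτ ⊢
      exact ⟨hτ.1, hsub τ hτ.2⟩
    · refine hle.trans ?_
      rw [← hcard, Nat.card_eq_fintype_card, Fintype.card_subtype]
  have h3 : σ ∈ Finset.univ.filter fun τ => τ ∈ C.fixingSubgroup := by
    rw [h2, Finset.mem_filter]
    exact ⟨Finset.mem_univ _, h⟩
  rw [Finset.mem_filter] at h3
  exact h3.2

/-- the automorphism `ζ ↦ ζ ^ a` of the field of `p`-th roots of unity -/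
theorem exists_sigma {Ω : Type*} [Field Ω] (G : Ω →+* Ω) {ξ : Ω} (hξ : IsPrimitiveRoot ξ p)
    (φ : CyclotomicField p ℚ →+* Ω) {a : ℕ} (ha : G ξ = ξ ^ a) :
    ∃ σ : CyclotomicField p ℚ ≃ₐ[ℚ] CyclotomicField p ℚ, (∀ x, G (φ x) = φ (σ x)) ∧
      ∀ n : ℕ, σ ^ n = 1 ↔ a ^ n ≡ 1 [MOD p] := by
  have hζ := zeta_spec p ℚ (CyclotomicField p ℚ)
  set ζ := zeta p ℚ (CyclotomicField p ℚ) with hζdef
  have hGξ : IsPrimitiveRoot (G ξ) p := hξ.map_of_injective G.injective
  rw [ha] at hGξ
  have hac : a.Coprime p := (hξ.pow_iff_coprime hp.out.pos a).1 hGξ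
  set e := autEquivPow (CyclotomicField p ℚ) (irr (p := p)) with he
  set σ := e.symm (ZMod.unitOfCoprime a hac) with hσ
  have h1 : e σ = ZMod.unitOfCoprime a hac := by rw [hσ, e.apply_symm_apply]
  have h2 : σ ζ = ζ ^ a := by
    have h3 := hζ.autToPow_spec ℚ σ
    have h4 : hζ.autToPow ℚ σ = ZMod.unitOfCoprime a hac := h1
    rw [h4, ZMod.coe_unitOfCoprime] at h3
    rw [← h3, ← pow_mod_orderOf ζ a, ← hζ.eq_orderOf, ZMod.val_natCast]
  refine ⟨σ, ?_, ?_⟩
  · have hφζ : φ ζ ^ p = 1 := by rw [← map_pow, hζ.pow_eq_one, map_one]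
    obtain ⟨j, -, hj⟩ := hξ.eq_pow_of_pow_eq_one hφζ
    have h6 : G (φ ζ) = φ (σ ζ) := by
      rw [h2, map_pow, ← hj, map_pow, ha, ← pow_mul, ← pow_mul, mul_comm]
    have : CharZero Ω := charZero_of_injective_ringHom φ.injective
    let A : CyclotomicField p ℚ →ₐ[ℚ] Ω := (G.comp φ).toRatAlgHom
    let B : CyclotomicField p ℚ →ₐ[ℚ] Ω :=
      (φ.comp (σ : CyclotomicField p ℚ →+* CyclotomicField p ℚ)).toRatAlgHom
    have h7 : A = B := by
      apply (hζ.powerBasis ℚ).algHom_ext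
      rw [IsPrimitiveRoot.powerBasis_gen]
      exact h6
    intro x
    exact congrArg (fun f : CyclotomicField p ℚ →ₐ[ℚ] Ω => f x) h7
  · intro n
    rw [← e.injective.eq_iff, map_pow, h1, map_one, Units.ext_iff, Units.val_pow_eq_pow_val,
      ZMod.coe_unitOfCoprime, Units.val_one]
    rw [← Nat.cast_pow, ← Nat.cast_one, ZMod.natCast_eq_natCast_iff]

end Cyc

end Vale.Agent.P024.H114
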