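import Vale.Agent.P024.H114.Glue

/-!
The cyclotomic part of the last step, literal form.
-/

namespace Vale.Agent.P024.H114

open scoped NumberField
open IsDedekindDomain NumberField
open Vale.Agent.P024 Vale.Agent.P024.M4

theorem cyc4 {E₁ E₂ : Type*} [Field E₁] [CharZero E₁] [IsAlgClosed E₁]
    [Algebra.IsAlgebraic ℚ E₁] [Field E₂] [CharZero E₂] [IsGalois ℚ E₂] (hE₂ : SolvablyClosed E₂)
    (F : IntermediateField ℚ E₁) [NumberField F]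
    (a : (E₁ ≃ₐ[F] E₁) →* (E₂ ≃ₐ[ℚ] E₂)) (ha : Continuous a)
    {p q : ℕ} (hp : p.Prime) (hp2 : p ≠ 2) (hq : q.Prime) (v : HeightOneSpectrum (𝓞 F))
    (hv : v ∈ Alive a p) {O : ValuationSubring E₁} {O₂ : ValuationSubring E₂} {r r₂ : ℕ}
    {φ : E₁ ≃ₐ[ℚ] E₁} {ζ : E₂ ≃ₐ[ℚ] E₂} (hOv : IsCenter O v) (hP : Pair a p O O₂ r r₂ φ ζ)
    (hrq : r₂ ≠ q) (k : ℕ) (s : E₁ ≃ₐ[F] E₁) (hs : s.restrictScalars ℚ = φ ^ k) :
    ∃ m : ℕ, (r : ZMod p) ^ k = (r₂ : ZMod p) ^ m ∧ (∀ x : E₂, x ^ q = 1 → a s x = x ^ (r₂ ^ m)) ∧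
      (∀ x : E₂, x ^ q = 1 → ζ x = x ^ r₂) := by
  obtain ⟨m, h1, h2, h3⟩ := pair_arith hE₂ F a ha hp hp2 hq v hv hOv hP hrq k s hs
  exact ⟨m, h3, fun x hx => h1 x (by rw [mul_comm, pow_mul, hx, one_pow]),
    fun x hx => h2 x (by rw [mul_comm, pow_mul, hx, one_pow])⟩

/-- The elements which fix the roots of unity of order `q`. -/
theorem exists_fix_roots {E : Type*} [Field E] [CharZero E] [IsGalois ℚ E] (hE : SolvablyClosed E)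
    {q : ℕ} (hq : 0 < q) : (∃ x : E, IsPrimitiveRoot x q) ∧
    ∃ V : Subgroup (E ≃ₐ[ℚ] E), V.Normal ∧ IsOpen (V : Set (E ≃ₐ[ℚ] E)) ∧
      ∀ s : E ≃ₐ[ℚ] E, s ∈ V ↔ ∀ x : E, x ^ q = 1 → s x = x := by
  obtain ⟨ξ, hξ⟩ := hE.exists_primitiveRoot q hq
  refine ⟨⟨ξ, hξ⟩, ?_⟩
  let V : Subgroup (E ≃ₐ[ℚ] E) :=
    { carrier := {s | ∀ x : E, x ^ q = 1 → s x = x}
      mul_mem' := by
        intro s t hs ht x hx
        rw [AlgEquiv.mul_apply, ht x hx, hs x hx]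
      one_mem' := fun x _ => rfl
      inv_mem' := by
        intro s hs x hx
        have h1 := hs x hx
        nth_rewrite 1 [← h1]
        rw [← AlgEquiv.mul_apply, inv_mul_cancel, AlgEquiv.one_apply] }
  have hVmem : ∀ s : E ≃ₐ[ℚ] E, s ∈ V ↔ ∀ x : E, x ^ q = 1 → s x = x := fun s => Iff.rfl
  refine ⟨V, ⟨?_⟩, ?_, hVmem⟩
  · intro s hs g
    rw [hVmem] at hs ⊢
    intro x hx
    rw [AlgEquiv.mul_apply, AlgEquiv.mul_apply, hs (g⁻¹ x) (by rw [← map_pow, hx, map_one]),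
      ← AlgEquiv.mul_apply, mul_inv_cancel, AlgEquiv.one_apply]
  · have h1 : IsOpen ((MulAction.stabilizer (E ≃ₐ[ℚ] E) ξ : Subgroup (E ≃ₐ[ℚ] E)) :
        Set (E ≃ₐ[ℚ] E)) := stabilizer_isOpen_of_isIntegral (K := ℚ) (L := E) ξ
    refine Subgroup.isOpen_mono ?_ h1
    intro s hs
    rw [hVmem]
    intro x hx
    have : NeZero q := ⟨hq.ne'⟩
    obtain ⟨i, -, rfl⟩ := hξ.eq_pow_of_pow_eq_one hx
    rw [map_pow, show s ξ = ξ from hs]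

end Vale.Agent.P024.H114
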