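import Vale.Agent.P024.H114.MaxPro

/-!
The criteria for an arbitrary Galois extension `E₁ / F₁` and a field `E₂` closed under `l`-th roots.
-/

namespace Vale.Agent.P024.H114

open Vale.Agent.P024
open scoped NumberField
open IsDedekindDomain

/-- `E` contains the subfield of degree `l` of the field of `p`-th roots of unity, and `g` fixes
it. -/
def Fixes (l p : ℕ) {F E : Type*} [Field F] [Field E] [Algebra F E] (g : E ≃ₐ[F] E) : Prop :=
  ∃ (C : IntermediateField ℚ (CyclotomicField p ℚ)) (f : C →+* E), Module.finrank ℚ C = l ∧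
    ∀ c : C, g (f c) = f c

section Unique

variable {p : ℕ} [hp : Fact p.Prime]

/-- there is only one subfield of degree `l` -/
theorem sub_unique {l : ℕ} (hl : 0 < l) (hlp : l ∣ p - 1)
    (C C' : IntermediateField ℚ (CyclotomicField p ℚ)) (hC : Module.finrank ℚ C = l)
    (hC' : Module.finrank ℚ C' = l) : C = C' := by
  have h : C.fixingSubgroup = C'.fixingSubgroup := by
    ext σ
    rw [IntermediateField.mem_fixingSubgroup_iff, IntermediateField.mem_fixingSubgroup_iff,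
      fix_iff_pow hl hlp C hC, fix_iff_pow hl hlp C' hC']
  rw [← IsGalois.fixedField_fixingSubgroup C, ← IsGalois.fixedField_fixingSubgroup C', h]

instance normal_sub (C : IntermediateField ℚ (CyclotomicField p ℚ)) : Normal ℚ C := by
  have hcyc := isCyclic_aut (p := p)
  have hcomm : ∀ σ τ : CyclotomicField p ℚ ≃ₐ[ℚ] CyclotomicField p ℚ, σ * τ = τ * σ := by
    have : IsMulCommutative (CyclotomicField p ℚ ≃ₐ[ℚ] CyclotomicField p ℚ) := inferInstance
    exact fun σ τ => this.is_comm.comm σ τ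
  have hN : C.fixingSubgroup.Normal := by
    constructor
    intro n hn g
    rw [hcomm g n, mul_assoc, mul_inv_cancel, mul_one]
    exact hn
  have h1 := IsGalois.of_fixedField_normal_subgroup C.fixingSubgroup
  rw [IsGalois.fixedField_fixingSubgroup] at h1
  exact h1.to_normal

/-- all embeddings of the subfield of degree `l` have the same image -/
theorem exists_eq_apply {E : Type*} [Field E] {l : ℕ} (hl : 0 < l) (hlp : l ∣ p - 1)
    (C C' : IntermediateField ℚ (CyclotomicField p ℚ)) (hC : Module.finrank ℚ C = l)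
    (hC' : Module.finrank ℚ C' = l) (f : C →+* E) (f' : C' →+* E) (c : C') :
    ∃ d : C, f' c = f d := by
  obtain rfl := sub_unique hl hlp C C' hC hC'
  have : CharZero E := charZero_of_injective_ringHom f.injective
  let A : C →ₐ[ℚ] E := f.toRatAlgHom
  let B : C →ₐ[ℚ] E := f'.toRatAlgHom
  have hint : IsIntegral ℚ c := Algebra.IsIntegral.isIntegral c
  have h1 : B c ∈ (minpoly ℚ c).rootSet E := by
    rw [Polynomial.mem_rootSet]
    refine ⟨minpoly.ne_zero hint, ?_⟩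
    rw [Polynomial.aeval_algHom_apply, minpoly.aeval, map_zero]
  have h2 := ((normal_sub C).splits c).image_rootSet A
  rw [← h2] at h1
  obtain ⟨d, -, hd⟩ := h1
  exact ⟨d, hd.symm⟩

end Unique

section Fix

variable {F E : Type*} [Field F] [Field E] [Algebra F E]

theorem Fixes.fixesSub {l p : ℕ} (hp : p.Prime) (hl : 0 < l) (hlp : l ∣ p - 1) {g : E ≃ₐ[F] E}
    (h : Fixes l p g) : FixesSub l p g := by
  have hfp : Fact p.Prime := ⟨hp⟩
  obtain ⟨C, f, hC, hf⟩ := h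
  intro C' hC' f' c
  obtain ⟨d, hd⟩ := exists_eq_apply hl hlp C C' hC hC' f f' c
  rw [hd, hf]

/-- a field closed under `l`-th roots contains the subfield of degree `l` -/
theorem exists_embedding [NumberField F] [IsGalois F E] {l p : ℕ} (hl : l.Prime) (hp : p.Prime)
    (hlp : l ∣ p - 1) (h : RootClosed l E) :
    ∃ (C : IntermediateField ℚ (CyclotomicField p ℚ)) (_ : C →+* E), Module.finrank ℚ C = l := by
  have : CharZero E := charZero_of_injective_algebraMap (algebraMap F E).injective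
  obtain ⟨ζ, hζ⟩ := h.1
  have hfin : FiniteDimensional F (IntermediateField.adjoin F {ζ}) :=
    IntermediateField.adjoin.finiteDimensional (Algebra.IsIntegral.isIntegral ζ)
  have hNF : NumberField (IntermediateField.adjoin F {ζ}) := NumberField.of_module_finite F _
  have hnz : NeZero l := ⟨hl.ne_zero⟩
  exact (gk_aux (IntermediateField.adjoin F {ζ}) hl hp hlp h (fun z hz => by
    obtain ⟨i, -, rfl⟩ := hζ.eq_pow_of_pow_eq_one hz
    exact pow_mem (IntermediateField.mem_adjoin_simple_self F ζ) i)).1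

theorem FixesSub.fixes [NumberField F] [IsGalois F E] {l p : ℕ} (hl : l.Prime) (hp : p.Prime)
    (hlp : l ∣ p - 1) (h : RootClosed l E) {g : E ≃ₐ[F] E} (hg : FixesSub l p g) :
    Fixes l p g := by
  obtain ⟨C, f, hC⟩ := exists_embedding (F := F) hl hp hlp h
  exact ⟨C, f, hC, hg C hC f⟩

end Fix

theorem charZero_top (F E : Type*) [Field F] [NumberField F] [Field E] [Algebra F E] :
    CharZero E := charZero_of_injective_algebraMap (algebraMap F E).injective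

theorem rootClosed_closure {E : Type*} [Field E] [CharZero E] {l : ℕ} (hl : l.Prime) :
    RootClosed l (AlgebraicClosure E) := by
  have : CharZero (AlgebraicClosure E) :=
    charZero_of_injective_algebraMap (algebraMap E (AlgebraicClosure E)).injective
  have : NeZero ((l : ℕ) : AlgebraicClosure E) := ⟨by exact_mod_cast hl.ne_zero⟩
  have : NeZero l := ⟨hl.ne_zero⟩
  exact ⟨HasEnoughRootsOfUnity.exists_primitiveRoot (AlgebraicClosure E) l,
    fun x => IsAlgClosed.exists_pow_nat_eq x hl.pos⟩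

section Extend

variable {F E : Type*} [Field F] [NumberField F] [Field E] [Algebra F E] [IsGalois F E]

theorem isGalois_closure : IsGalois F (AlgebraicClosure E) := by
  have : CharZero E := charZero_of_injective_algebraMap (algebraMap F E).injective
  have halg : Algebra.IsAlgebraic F (AlgebraicClosure E) := Algebra.IsAlgebraic.trans F E _
  have hclos : IsAlgClosure F (AlgebraicClosure E) := ⟨inferInstance, inferInstance⟩
  have hnorm : Normal F (AlgebraicClosure E) := IsAlgClosure.normal F _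
  exact ⟨⟩

omit [NumberField F] in
theorem continuous_restrict [Normal F (AlgebraicClosure E)] :
    Continuous (AlgEquiv.restrictNormalHom E :
      (AlgebraicClosure E ≃ₐ[F] AlgebraicClosure E) →* (E ≃ₐ[F] E)) := by
  apply continuous_of_continuousAt_one
  rw [ContinuousAt, map_one]
  intro A hA
  rw [krullTopology_mem_nhds_one_iff] at hA
  obtain ⟨L, hL, hLA⟩ := hA
  rw [Filter.mem_map, krullTopology_mem_nhds_one_iff]
  have hfin : FiniteDimensional F (L.map (IsScalarTower.toAlgHom F E (AlgebraicClosure E))) :=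
    (L.equivMap (IsScalarTower.toAlgHom F E (AlgebraicClosure E))).toLinearEquiv.finiteDimensional
  refine ⟨_, hfin, ?_⟩
  intro g hg
  apply hLA
  change AlgEquiv.restrictNormalHom E g ∈ L.fixingSubgroup
  rw [IntermediateField.mem_fixingSubgroup_iff]
  intro x hx
  have hg' : g ∈ (L.map (IsScalarTower.toAlgHom F E (AlgebraicClosure E))).fixingSubgroup := hg
  rw [IntermediateField.mem_fixingSubgroup_iff] at hg'
  have h1 := hg' (algebraMap E (AlgebraicClosure E) x) ⟨x, hx, rfl⟩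
  have h2 := AlgEquiv.restrictNormal_commutes g E x
  apply (algebraMap E (AlgebraicClosure E)).injective
  exact h2.trans h1

end Extend

section Main

variable {F₁ E₁ F₂ E₂ : Type*} [Field F₁] [NumberField F₁] [Field E₁]
    [Algebra F₁ E₁] [IsGalois F₁ E₁] [Field F₂] [NumberField F₂] [Field E₂] [Algebra F₂ E₂]
    [IsGalois F₂ E₂]

omit [NumberField F₂] [IsGalois F₂ E₂] in
/-- from embeddings into the algebraic closure of `E₁` to embeddings into `E₁` -/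
theorem descend [IsGalois F₁ (AlgebraicClosure E₁)] (α : (E₁ ≃ₐ[F₁] E₁) →* (E₂ ≃ₐ[F₂] E₂))
    (h : ∃ j : E₂ →+* AlgebraicClosure E₁,
      ∀ (g : AlgebraicClosure E₁ ≃ₐ[F₁] AlgebraicClosure E₁) (x : E₂),
        g (j x) = j ((α (AlgEquiv.restrictNormalHom E₁ g)) x)) :
    ∃ j : E₂ →+* E₁, ∀ (g : E₁ ≃ₐ[F₁] E₁) (x : E₂), g (j x) = j ((α g) x) := by
  obtain ⟨j, hj⟩ := h
  have hinj := (algebraMap E₁ (AlgebraicClosure E₁)).injective
  have hE : CharZero E₁ := charZero_top F₁ E₁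
  have hgalE : IsGalois E₁ (AlgebraicClosure E₁) := by
    have : IsAlgClosure E₁ (AlgebraicClosure E₁) := ⟨inferInstance, inferInstance⟩
    have : Normal E₁ (AlgebraicClosure E₁) := IsAlgClosure.normal E₁ _
    exact ⟨⟩
  have hmem : ∀ x : E₂, ∃ y : E₁, algebraMap E₁ (AlgebraicClosure E₁) y = j x := by
    intro x
    have h1 : j x ∈ (⊥ : IntermediateField E₁ (AlgebraicClosure E₁)) := by
      apply mem_of_forall_fixed
      intro τ _
      have h2 := hj (τ.restrictScalars F₁) x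
      have h3 : (AlgEquiv.restrictNormalHom E₁ (τ.restrictScalars F₁) : E₁ ≃ₐ[F₁] E₁) = 1 := by
        ext y
        apply hinj
        have h4 := AlgEquiv.restrictNormal_commutes (τ.restrictScalars F₁) E₁ y
        refine h4.trans ?_
        exact τ.commutes y
      rw [h3, map_one] at h2
      exact h2
    rw [IntermediateField.mem_bot] at h1
    exact h1
  choose f₀ hf₀ using hmem
  let f : E₂ →+* E₁ :=
    { toFun := f₀
      map_one' := hinj (by rw [hf₀, map_one, map_one])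
      map_mul' := fun c d => hinj (by rw [map_mul, hf₀, hf₀, hf₀, map_mul])
      map_zero' := hinj (by rw [hf₀, map_zero, map_zero])
      map_add' := fun c d => hinj (by rw [map_add, hf₀, hf₀, hf₀, map_add]) }
  have hf : ∀ x : E₂, algebraMap E₁ (AlgebraicClosure E₁) (f x) = j x := hf₀
  refine ⟨f, fun g x => hinj ?_⟩
  obtain ⟨G, rfl⟩ := AlgEquiv.restrictNormalHom_surjective (F := F₁) (K₁ := E₁)
    (AlgebraicClosure E₁) g
  have h5 := AlgEquiv.restrictNormal_commutes G E₁ (f x)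
  rw [hf, hj] at h5
  rw [hf]
  exact h5

/-- Criterion A. -/
theorem crit_A {l : ℕ} (hl : l.Prime) (hl2 : l ≠ 2) (hE₂ : RootClosed l E₂)
    (α : (E₁ ≃ₐ[F₁] E₁) →* (E₂ ≃ₐ[F₂] E₂)) (hα : Continuous α)
    (U : Subgroup (E₁ ≃ₐ[F₁] E₁)) (hU : IsOpen (U : Set (E₁ ≃ₐ[F₁] E₁)))
    (Q : Set ℕ) (hQ : MeetsSplit Q)
    (hker : ∀ g ∈ U, ∀ p ∈ Q, p.Prime → l ∣ p - 1 → Fixes l p (α g) → Fixes l p g) :
    ∃ j : E₂ →+* E₁, ∀ (g : E₁ ≃ₐ[F₁] E₁) (x : E₂), g (j x) = j ((α g) x) := by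
  have hgal : IsGalois F₁ (AlgebraicClosure E₁) := isGalois_closure
  have hE : CharZero E₁ := charZero_top F₁ E₁
  have hcont := (hα.comp (continuous_restrict (F := F₁) (E := E₁)))
  refine descend α (induced_A (F₁ := F₁) (E₁ := AlgebraicClosure E₁) hl hl2
    (rootClosed_closure hl) hE₂ (α.comp (AlgEquiv.restrictNormalHom E₁)) hcont
    (U.comap (AlgEquiv.restrictNormalHom E₁)) (hU.preimage (continuous_restrict (E := E₁)))
    Q hQ ?_)
  intro G hG p hp hpQ hlp hfix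
  obtain ⟨C, f, hC, hf⟩ := hker _ hG p hpQ hp hlp (hfix.fixes hl hp hlp hE₂)
  apply Fixes.fixesSub hp hl.pos hlp
  refine ⟨C, (algebraMap E₁ (AlgebraicClosure E₁)).comp f, hC, fun c => ?_⟩
  have h1 := AlgEquiv.restrictNormal_commutes G E₁ (f c)
  have h2 : (G.restrictNormal E₁) (f c) = f c := hf c
  rw [h2] at h1
  exact h1.symm

/-- Criterion B. -/
theorem crit_B {l : ℕ} (hl : l.Prime) (hl2 : l ≠ 2) (hE₂ : RootClosed l E₂)
    (α : (E₁ ≃ₐ[F₁] E₁) →* (E₂ ≃ₐ[F₂] E₂)) (hα : Continuous α) (hopen : IsOpen (Set.range α))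
    (U : Subgroup (E₁ ≃ₐ[F₁] E₁)) (hU : IsOpen (U : Set (E₁ ≃ₐ[F₁] E₁)))
    (Q : Set ℕ) (hQ : MeetsSplit Q)
    (hker : ∀ p ∈ Q, p.Prime → l ∣ p - 1 → Fixes l p (1 : E₁ ≃ₐ[F₁] E₁) ∧
      ∀ g ∈ U, Fixes l p g → Fixes l p (α g)) :
    ∃ j : E₂ →+* E₁, ∀ (g : E₁ ≃ₐ[F₁] E₁) (x : E₂), g (j x) = j ((α g) x) := by
  have hgal : IsGalois F₁ (AlgebraicClosure E₁) := isGalois_closure
  have hE : CharZero E₁ := charZero_top F₁ E₁
  have hcont := (hα.comp (continuous_restrict (F := F₁) (E := E₁)))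
  have hsurj : Function.Surjective (AlgEquiv.restrictNormalHom E₁ :
      (AlgebraicClosure E₁ ≃ₐ[F₁] AlgebraicClosure E₁) →* (E₁ ≃ₐ[F₁] E₁)) :=
    AlgEquiv.restrictNormalHom_surjective (F := F₁) (K₁ := E₁) (AlgebraicClosure E₁)
  have hopen' : IsOpen (Set.range (α.comp (AlgEquiv.restrictNormalHom E₁ :
      (AlgebraicClosure E₁ ≃ₐ[F₁] AlgebraicClosure E₁) →* (E₁ ≃ₐ[F₁] E₁)))) := by
    rw [MonoidHom.coe_comp, hsurj.range_comp]
    exact hopen
  refine descend α (induced_B (F₁ := F₁) (E₁ := AlgebraicClosure E₁) hl hl2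
    (rootClosed_closure hl) hE₂ (α.comp (AlgEquiv.restrictNormalHom E₁)) hcont hopen'
    (U.comap (AlgEquiv.restrictNormalHom E₁)) (hU.preimage (continuous_restrict (E := E₁)))
    Q hQ ?_)
  intro G hG p hp hpQ hlp hfix
  obtain ⟨⟨C, f, hC, -⟩, h⟩ := hker p hpQ hp hlp
  apply Fixes.fixesSub hp hl.pos hlp
  refine h _ hG ⟨C, f, hC, fun c => ?_⟩
  apply (algebraMap E₁ (AlgebraicClosure E₁)).injective
  have h1 := AlgEquiv.restrictNormal_commutes G E₁ (f c)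
  refine h1.trans ?_
  exact hfix C hC ((algebraMap E₁ (AlgebraicClosure E₁)).comp f) c

theorem unique' {l : ℕ} (hl : l.Prime) (hE₂ : RootClosed l E₂)
    (α : (E₁ ≃ₐ[F₁] E₁) →* (E₂ ≃ₐ[F₂] E₂)) (j j' : E₂ →+* E₁)
    (hj : ∀ (g : E₁ ≃ₐ[F₁] E₁) (x : E₂), g (j x) = j ((α g) x))
    (hj' : ∀ (g : E₁ ≃ₐ[F₁] E₁) (x : E₂), g (j' x) = j' ((α g) x)) : j = j' := by
  have hgal : IsGalois F₁ (AlgebraicClosure E₁) := isGalois_closure
  have hE : CharZero E₁ := charZero_top F₁ E₁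
  obtain ⟨ζ, hζ⟩ := (rootClosed_closure (E := E₁) hl).1
  have key : ∀ i : E₂ →+* E₁, (∀ (g : E₁ ≃ₐ[F₁] E₁) (x : E₂), g (i x) = i ((α g) x)) →
      ∀ (G : AlgebraicClosure E₁ ≃ₐ[F₁] AlgebraicClosure E₁) (x : E₂),
        G (((algebraMap E₁ (AlgebraicClosure E₁)).comp i) x) =
          ((algebraMap E₁ (AlgebraicClosure E₁)).comp i)
            ((α.comp (AlgEquiv.restrictNormalHom E₁) G) x) := by
    intro i hi G x
    have h1 := AlgEquiv.restrictNormal_commutes G E₁ (i x)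
    change G (algebraMap E₁ (AlgebraicClosure E₁) (i x)) =
      algebraMap E₁ (AlgebraicClosure E₁) (i ((α (G.restrictNormal E₁)) x))
    rw [← h1, hi]
  have h := unique_of_induces (F₁ := F₁) (E₁ := AlgebraicClosure E₁)
    (α.comp (AlgEquiv.restrictNormalHom E₁)) hl (rootClosed_closure (E := E₁) hl).2
    hE₂.2 hζ _ _ (key j hj) (key j' hj')
  ext x
  apply (algebraMap E₁ (AlgebraicClosure E₁)).injective
  exact congrArg (fun f : E₂ →+* AlgebraicClosure E₁ => f x) h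

omit [NumberField F₁] [IsGalois F₁ E₁] in
theorem fixes_iff {l p : ℕ} (hl : l.Prime) (hp : p.Prime) (hlp : l ∣ p - 1)
    (hE₂ : RootClosed l E₂) (α : (E₁ ≃ₐ[F₁] E₁) →* (E₂ ≃ₐ[F₂] E₂)) (j : E₂ →+* E₁)
    (hj : ∀ (g : E₁ ≃ₐ[F₁] E₁) (x : E₂), g (j x) = j ((α g) x)) (g : E₁ ≃ₐ[F₁] E₁) :
    Fixes l p g ↔ Fixes l p (α g) := by
  constructor
  · intro h
    obtain ⟨C, f, hC⟩ := exists_embedding (F := F₂) hl hp hlp hE₂
    refine ⟨C, f, hC, fun c => j.injective ?_⟩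
    rw [← hj]
    exact (h.fixesSub hp hl.pos hlp) C hC (j.comp f) c
  · rintro ⟨C, f, hC, hf⟩
    refine ⟨C, j.comp f, hC, fun c => ?_⟩
    rw [RingHom.comp_apply, hj, hf]

end Main

/-- the hypothesis on the set of primes, in terms of homomorphisms to finite prime fields -/
def Meets (Q : Set ℕ) : Prop :=
  ∀ (Z : Type) [Field Z] [NumberField Z] [IsGalois ℚ Z], ∃ δ : ℝ, 0 < δ ∧
    ∃ᶠ s : ℝ in nhdsWithin 1 (Set.Ioi 1), δ * Real.log (1 / (s - 1)) ≤
      ∑' p : {p : ℕ | p.Prime ∧ p ∈ Q ∧ Nonempty (𝓞 Z →+* ZMod p)}, ((p : ℕ) : ℝ) ^ (-s)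

theorem Meets.meetsSplit {Q : Set ℕ} (h : Meets Q) : MeetsSplit Q := meetsSplit_of_ringHom h

theorem meets_univ : Meets Set.univ := fun Z _ _ _ => ringHom_univ Z

theorem meets_compl {B : Set ℕ}
    (hB : Filter.Tendsto (fun s : ℝ => (∑' p : {p : ℕ | p.Prime ∧ p ∈ B}, ((p : ℕ) : ℝ) ^ (-s)) /
      Real.log (1 / (s - 1))) (nhdsWithin 1 (Set.Ioi 1)) (nhds 0)) : Meets Bᶜ := by
  intro Z _ _ _
  rw [← normPrimes_eq]
  exact frequently_norm_compl Z B hB

section Roots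

/-- the embedding of the field of `p`-th roots of unity given by a primitive `p`-th root -/
theorem exists_phi {p : ℕ} [hp : Fact p.Prime] {E : Type*} [Field E] [CharZero E] {ξ : E}
    (hξ : IsPrimitiveRoot ξ p) : Nonempty (CyclotomicField p ℚ →+* E) := by
  have hζ := IsCyclotomicExtension.zeta_spec p ℚ (CyclotomicField p ℚ)
  have h1 : Polynomial.aeval ξ (minpoly ℚ (hζ.powerBasis ℚ).gen) = 0 := by
    rw [IsPrimitiveRoot.powerBasis_gen, ← hζ.minpoly_eq_cyclotomic_of_irreducible irr,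
      Polynomial.aeval_def, Polynomial.eval₂_eq_eval_map, Polynomial.map_cyclotomic]
    exact (Polynomial.isRoot_cyclotomic_iff_charZero hp.out.pos).2 hξ
  exact ⟨((hζ.powerBasis ℚ).lift ξ h1 : CyclotomicField p ℚ →ₐ[ℚ] E).toRingHom⟩

theorem fixes_iff_pow {p l : ℕ} (hp : p.Prime) (hl : 0 < l) (hlp : l ∣ p - 1) {F E : Type*}
    [Field F] [Field E] [Algebra F E] [CharZero E] {ξ : E} (hξ : IsPrimitiveRoot ξ p)
    (g : E ≃ₐ[F] E) {a : ℕ} (ha : g ξ = ξ ^ a) :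
    Fixes l p g ↔ a ^ ((p - 1) / l) ≡ 1 [MOD p] := by
  have hfp : Fact p.Prime := ⟨hp⟩
  obtain ⟨φ⟩ := exists_phi hξ
  obtain ⟨σ, hσ1, hσ2⟩ := exists_sigma (g : E →+* E) hξ φ ha
  rw [← hσ2]
  constructor
  · intro h
    obtain ⟨C, hC⟩ := exists_sub (p := p) hl hlp
    rw [← fix_iff_pow hl hlp C hC]
    intro c hc
    apply φ.injective
    rw [← hσ1]
    exact h.fixesSub hp hl hlp C hC (φ.comp C.toSubfield.subtype) ⟨c, hc⟩
  · intro h
    obtain ⟨C, hC⟩ := exists_sub (p := p) hl hlp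
    refine ⟨C, φ.comp C.toSubfield.subtype, hC, fun c => ?_⟩
    have h1 := (fix_iff_pow hl hlp C hC σ).2 h c c.2
    have h2 := hσ1 (c : CyclotomicField p ℚ)
    rw [h1] at h2
    exact h2

end Roots

section Equiv

variable {F₁ E₁ F₂ E₂ : Type*} [Field F₁] [NumberField F₁] [Field E₁]
    [Algebra F₁ E₁] [IsGalois F₁ E₁] [Field F₂] [NumberField F₂] [Field E₂] [Algebra F₂ E₂]
    [IsGalois F₂ E₂]

theorem equiv {l : ℕ} (hl : l.Prime) (hl2 : l ≠ 2) (hE₂ : RootClosed l E₂)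
    (α : (E₁ ≃ₐ[F₁] E₁) →* (E₂ ≃ₐ[F₂] E₂)) (hα : Continuous α) :
    List.TFAE [
      ∃! j : E₂ →+* E₁, ∀ (g : E₁ ≃ₐ[F₁] E₁) (x : E₂), g (j x) = j ((α g) x),
      ∀ p : ℕ, p.Prime → p ≡ 1 [MOD l] → ∀ g : E₁ ≃ₐ[F₁] E₁, Fixes l p g ↔ Fixes l p (α g),
      ∃ (U : Subgroup (E₁ ≃ₐ[F₁] E₁)) (Q : Set ℕ), IsOpen (U : Set (E₁ ≃ₐ[F₁] E₁)) ∧ Meets Q ∧
        ∀ p ∈ Q, p.Prime → p ≡ 1 [MOD l] → ∀ g ∈ U, Fixes l p (α g) → Fixes l p g,
      IsOpen (Set.range α) ∧ ∃ (U : Subgroup (E₁ ≃ₐ[F₁] E₁)) (Q : Set ℕ),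
        IsOpen (U : Set (E₁ ≃ₐ[F₁] E₁)) ∧ Meets Q ∧
        ∀ p ∈ Q, p.Prime → p ≡ 1 [MOD l] → Fixes l p (1 : E₁ ≃ₐ[F₁] E₁) ∧
          ∀ g ∈ U, Fixes l p g → Fixes l p (α g)] := by
  have hmod : ∀ {p : ℕ}, p.Prime → (l ∣ p - 1 ↔ p ≡ 1 [MOD l]) := fun {p} hp =>
    ⟨fun h => ((Nat.modEq_iff_dvd' hp.one_le).2 h).symm,
      fun h => (Nat.modEq_iff_dvd' hp.one_le).1 h.symm⟩
  have hex : (∃ j : E₂ →+* E₁, ∀ (g : E₁ ≃ₐ[F₁] E₁) (x : E₂), g (j x) = j ((α g) x)) →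
      ∃! j : E₂ →+* E₁, ∀ (g : E₁ ≃ₐ[F₁] E₁) (x : E₂), g (j x) = j ((α g) x) := by
    rintro ⟨j, hj⟩
    exact ⟨j, hj, fun j' hj' => unique' hl hE₂ α j' j hj' hj⟩
  tfae_have 1 → 2 := by
    rintro ⟨j, hj, -⟩ p hp hpl g
    exact fixes_iff hl hp ((hmod hp).2 hpl) hE₂ α j hj g
  tfae_have 2 → 3 := fun h => ⟨⊤, Set.univ, isOpen_univ, meets_univ,
    fun p _ hp hpl g _ hg => (h p hp hpl g).2 hg⟩
  tfae_have 3 → 1 := by
    rintro ⟨U, Q, hU, hQ, h⟩
    exact hex (crit_A hl hl2 hE₂ α hα U hU Q hQ.meetsSplit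
      fun g hg p hpQ hp hlp => h p hpQ hp ((hmod hp).1 hlp) g hg)
  tfae_have 1 → 4 := by
    rintro ⟨j, hj, -⟩
    refine ⟨isOpen_range_of_induces α hα j hj, ⊤, Set.univ, isOpen_univ, meets_univ, ?_⟩
    intro p _ hp hpl
    have hlp := (hmod hp).2 hpl
    refine ⟨(fixes_iff hl hp hlp hE₂ α j hj 1).2 ?_, fun g _ =>
      (fixes_iff hl hp hlp hE₂ α j hj g).1⟩
    rw [map_one]
    obtain ⟨C, f, hC⟩ := exists_embedding (F := F₂) hl hp hlp hE₂
    exact ⟨C, f, hC, fun c => rfl⟩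
  tfae_have 4 → 1 := by
    rintro ⟨hopen, U, Q, hU, hQ, h⟩
    exact hex (crit_B hl hl2 hE₂ α hα hopen U hU Q hQ.meetsSplit
      fun p hpQ hp hlp => h p hpQ hp ((hmod hp).1 hlp))
  tfae_finish

/-- Fields which contain all roots of unity: compatibility with the cyclotomic characters. -/
theorem equiv_compat {l : ℕ} (hl : l.Prime) (hl2 : l ≠ 2) (hE₂ : RootClosed l E₂)
    (hr₁ : ∀ n : ℕ, 0 < n → ∃ ζ : E₁, IsPrimitiveRoot ζ n)
    (hr₂ : ∀ n : ℕ, 0 < n → ∃ ζ : E₂, IsPrimitiveRoot ζ n)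
    (α : (E₁ ≃ₐ[F₁] E₁) →* (E₂ ≃ₐ[F₂] E₂)) (hα : Continuous α) :
    (∃! j : E₂ →+* E₁, ∀ (g : E₁ ≃ₐ[F₁] E₁) (x : E₂), g (j x) = j ((α g) x)) ↔
      ∀ (g : E₁ ≃ₐ[F₁] E₁) (n k : ℕ), 0 < n → (∀ z : E₁, z ^ n = 1 → g z = z ^ k) →
        ∀ z : E₂, z ^ n = 1 → (α g) z = z ^ k := by
  have hc₁ := charZero_top F₁ E₁
  have hc₂ := charZero_top F₂ E₂
  constructor
  · rintro ⟨j, hj, -⟩ g n k hn hg z hz
    apply j.injective
    rw [← hj g z, map_pow]
    exact hg (j z) (by rw [← map_pow, hz, map_one])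
  · intro h
    refine ((equiv hl hl2 hE₂ α hα).out 0 1).2 ?_
    intro p hp hpl g
    have hlp : l ∣ p - 1 := (Nat.modEq_iff_dvd' hp.one_le).1 hpl.symm
    have : NeZero p := ⟨hp.ne_zero⟩
    obtain ⟨ξ₁, hξ₁⟩ := hr₁ p hp.pos
    obtain ⟨ξ₂, hξ₂⟩ := hr₂ p hp.pos
    obtain ⟨a, -, ha⟩ := hξ₁.eq_pow_of_pow_eq_one (ξ := g ξ₁)
      (by rw [← map_pow, hξ₁.pow_eq_one, map_one])
    rw [fixes_iff_pow hp hl.pos hlp hξ₁ g ha.symm, fixes_iff_pow hp hl.pos hlp hξ₂ (α g)]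
    refine h g p a hp.pos ?_ ξ₂ hξ₂.pow_eq_one
    intro z hz
    obtain ⟨i, -, rfl⟩ := hξ₁.eq_pow_of_pow_eq_one hz
    rw [map_pow, ← ha, ← pow_mul, ← pow_mul, mul_comm]

end Equiv

theorem SolvablyClosed.rootClosed {E : Type*} [Field E] [CharZero E] (h : SolvablyClosed E)
    {l : ℕ} (hl : l.Prime) : RootClosed l E :=
  ⟨h.exists_primitiveRoot l hl.pos, h.exists_root l hl.pos⟩

end Vale.Agent.P024.H114
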