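import Vale.Agent.P024.H114.Val
import Vale.Agent.P024.H114.Cyc

/-!
Gauss sums in fields closed under `l`-th roots. Such a field `E` need not contain the `p`-th roots
of unity, but it contains the subfield of degree `l` of the field of `p`-th roots of unity.
-/

namespace Vale.Agent.P024.H114

open Vale.Agent.P024
open scoped NumberField
open IsDedekindDomain NumberField

/-- `E` contains a primitive `l`-th root of unity and is closed under `l`-th roots. -/
def RootClosed (l : ℕ) (E : Type*) [Field E] : Prop :=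
  (∃ ζ : E, IsPrimitiveRoot ζ l) ∧ ∀ x : E, ∃ y : E, y ^ l = x

theorem RootClosed.exists_primitiveRoot {E : Type*} [Field E] {l : ℕ} (hl : l.Prime)
    (h : RootClosed l E) (n : ℕ) : ∃ ζ : E, IsPrimitiveRoot ζ (l ^ n) := by
  have hfl : Fact l.Prime := ⟨hl⟩
  obtain ⟨⟨ζ, hζ⟩, hpow⟩ := h
  induction n with
  | zero => exact ⟨1, by rw [pow_zero]; exact IsPrimitiveRoot.one⟩
  | succ n ih =>
    rcases Nat.eq_zero_or_pos n with rfl | hn
    · exact ⟨ζ, by simpa using hζ⟩
    · obtain ⟨η, hη⟩ := ih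
      obtain ⟨y, hy⟩ := hpow η
      refine ⟨y, ?_⟩
      rw [IsPrimitiveRoot.iff_orderOf]
      apply orderOf_eq_prime_pow
      · intro h1
        obtain ⟨m, rfl⟩ : ∃ m, n = m + 1 := ⟨n - 1, by omega⟩
        rw [pow_succ, mul_comm, pow_mul, hy] at h1
        have h2 := hη.dvd_of_pow_eq_one _ h1
        have h3 := Nat.le_of_dvd (pow_pos hl.pos m) h2
        rw [pow_succ] at h3
        have h4 := pow_pos hl.pos m
        have h5 := hl.two_le
        nlinarith
      · rw [pow_succ, mul_comm, pow_mul, hy, hη.pow_eq_one]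

/-- The statement on Gauss sums, in terms of the subfield of degree `l`. -/
def GK {F E : Type*} [Field F] [Field E] [Algebra F E] (K : IntermediateField F E)
    [NumberField K] (l : ℕ) : Prop :=
  ∀ p : ℕ, p.Prime → l ∣ p - 1 → ∃ (β : E) (x : K), β ≠ 0 ∧ β ^ l = (x : E) ∧
    (∀ g : E ≃ₐ[F] E, (∀ y ∈ K, g y = y) → (g β = β ↔ FixesSub l p g)) ∧
    (∀ w : HeightOneSpectrum (𝓞 K), w.valuation K (p : K) = WithZero.exp (-1 : ℤ) →
      ¬ DvdVal w l x) ∧
    (∀ w : HeightOneSpectrum (𝓞 K), (p : 𝓞 K) ∉ w.asIdeal → DvdVal w l x)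

/-- the subfield of degree `l` exists -/
theorem exists_sub {p : ℕ} [hp : Fact p.Prime] {l : ℕ} (hl : 0 < l) (hlp : l ∣ p - 1) :
    ∃ C : IntermediateField ℚ (CyclotomicField p ℚ), Module.finrank ℚ C = l := by
  classical
  have hcyc := isCyclic_aut (p := p)
  have hp1 : 0 < p - 1 := by have := hp.out.two_le; omega
  obtain ⟨γ, hγ⟩ := IsCyclic.exists_generator
    (α := CyclotomicField p ℚ ≃ₐ[ℚ] CyclotomicField p ℚ)
  have hcard : Nat.card (CyclotomicField p ℚ ≃ₐ[ℚ] CyclotomicField p ℚ) = p - 1 := by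
    rw [IsGalois.card_aut_eq_finrank, finrank_cyc]
  have hord : orderOf γ = p - 1 := by
    rw [← hcard]
    exact orderOf_eq_card_of_forall_mem_zpowers hγ
  set H : Subgroup (CyclotomicField p ℚ ≃ₐ[ℚ] CyclotomicField p ℚ) :=
    Subgroup.zpowers (γ ^ l) with hH
  have hHcard : Nat.card H = (p - 1) / l := by
    rw [hH, Nat.card_zpowers, orderOf_pow, hord, Nat.gcd_eq_right hlp]
  refine ⟨IntermediateField.fixedField H, ?_⟩
  have h1 : Module.finrank (IntermediateField.fixedField H) (CyclotomicField p ℚ) =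
      Nat.card H := IntermediateField.finrank_fixedField_eq_card H
  have h2 := Module.finrank_mul_finrank ℚ (IntermediateField.fixedField H) (CyclotomicField p ℚ)
  rw [h1, finrank_cyc, hHcard] at h2
  have hn : 0 < (p - 1) / l := Nat.div_pos (Nat.le_of_dvd hp1 hlp) hl
  have h3 : l * ((p - 1) / l) = p - 1 := Nat.mul_div_cancel' hlp
  rw [← h3] at h2
  rw [Nat.mul_div_cancel_left _ hl] at h2
  exact Nat.eq_of_mul_eq_mul_right hn h2

theorem exists_extend {L Ω : Type*} [Field L] [Algebra ℚ L] [Algebra.IsAlgebraic ℚ L]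
    (C : IntermediateField ℚ L) [Field Ω] [IsAlgClosed Ω] (f : C →+* Ω) :
    ∃ φ : L →+* Ω, ∀ c : C, φ c = f c := by
  let _ : Algebra C Ω := f.toAlgebra
  have hst : Algebra.IsAlgebraic C L := Algebra.IsAlgebraic.tower_top (K := ℚ) C
  have htf : Module.IsTorsionFree C Ω := by
    have : FaithfulSMul C Ω := (faithfulSMul_iff_algebraMap_injective C Ω).2 f.injective
    infer_instance
  let φ : L →ₐ[C] Ω := IsAlgClosed.lift
  exact ⟨φ, fun c => φ.commutes c⟩

section Main

variable {F E : Type*} [Field F] [Field E] [Algebra F E] [IsGalois F E] [CharZero E]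

/-- the main properties of the Gauss sum in a field closed under `l`-th roots, together with an
embedding of the subfield of degree `l` -/
theorem gk_aux (K : IntermediateField F E) [NumberField K] {l p : ℕ} (hl : l.Prime)
    (hp : p.Prime) (hlp : l ∣ p - 1) (h : RootClosed l E) (hK : ∀ z : E, z ^ l = 1 → z ∈ K) :
    (∃ (C : IntermediateField ℚ (CyclotomicField p ℚ)) (_ : C →+* E),
      Module.finrank ℚ C = l) ∧
    ∃ (β : E) (x : K), β ≠ 0 ∧ β ^ l = (x : E) ∧
    (∀ g : E ≃ₐ[F] E, (∀ y ∈ K, g y = y) → (g β = β ↔ FixesSub l p g)) ∧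
    (∀ w : HeightOneSpectrum (𝓞 K), w.valuation K (p : K) = WithZero.exp (-1 : ℤ) →
      ¬ DvdVal w l x) ∧
    (∀ w : HeightOneSpectrum (𝓞 K), (p : 𝓞 K) ∉ w.asIdeal → DvdVal w l x) := by
  classical
  have hfp : Fact p.Prime := ⟨hp⟩
  have : NeZero p := ⟨hp.ne_zero⟩
  have : NeZero l := ⟨hl.ne_zero⟩
  obtain ⟨⟨ζ, hζ⟩, hpow⟩ := h
  have hF : CharZero F := (algebraMap F E).charZero
  let Ω := AlgebraicClosure E
  have hΩ : CharZero Ω := charZero_of_injective_algebraMap (algebraMap E Ω).injective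
  have halg : Algebra.IsAlgebraic F Ω := Algebra.IsAlgebraic.trans F E Ω
  have hclos : IsAlgClosure F Ω := ⟨inferInstance, inferInstance⟩
  have hnorm : Normal F Ω := IsAlgClosure.normal F Ω
  have hgal : IsGalois F Ω := ⟨⟩
  set i : E →ₐ[F] Ω := IsScalarTower.toAlgHom F E Ω with hi
  have hiinj : Function.Injective (algebraMap E Ω) := (algebraMap E Ω).injective
  set K' : IntermediateField F Ω := K.map i with hK'
  set e : K ≃ₐ[F] K' := K.equivMap i with he
  have hNF : NumberField K' := NumberField.of_ringEquiv _ _ e.toRingEquiv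
  have hecoe : ∀ y : K, ((e y : K') : Ω) = algebraMap E Ω (y : E) := fun y => rfl
  obtain ⟨ξ, hξ⟩ : ∃ ξ : Ω, IsPrimitiveRoot ξ p := by
    have : NeZero ((p : ℕ) : Ω) := ⟨by exact_mod_cast hp.ne_zero⟩
    exact HasEnoughRootsOfUnity.exists_primitiveRoot Ω p
  have hζ' : IsPrimitiveRoot (algebraMap E Ω ζ) l := hζ.map_of_injective hiinj
  have hζK' : algebraMap E Ω ζ ∈ K' := ⟨ζ, hK ζ hζ.pow_eq_one, rfl⟩
  obtain ⟨b, x', hb0, hbx, hact, hv1, hv2⟩ := gauss_kummer K' hl hp hlp hζ' hζK' hξ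
  set x : K := e.symm x' with hx
  have hex : e x = x' := e.apply_symm_apply x'
  have hxi : algebraMap E Ω (x : E) = (x' : Ω) := by rw [← hecoe, hex]
  obtain ⟨β, hβ⟩ : ∃ β : E, algebraMap E Ω β = b := by
    obtain ⟨y, hy⟩ := hpow (x : E)
    have h1 : (b / algebraMap E Ω y) ^ l = 1 := by
      have h2 : (algebraMap E Ω y) ^ l = b ^ l := by rw [← map_pow, hy, hxi, hbx]
      rw [div_pow, h2, div_self (pow_ne_zero _ hb0)]
    obtain ⟨k, -, hk⟩ := hζ'.eq_pow_of_pow_eq_one h1
    have hy0 : algebraMap E Ω y ≠ 0 := by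
      intro h0
      rw [h0, div_zero, zero_pow hl.ne_zero] at h1
      exact zero_ne_one h1
    refine ⟨ζ ^ k * y, ?_⟩
    rw [map_mul, map_pow, hk, div_mul_cancel₀ _ hy0]
  have hexa : ∀ G : Ω →+* Ω, ∃ a : ℕ, G ξ = ξ ^ a := by
    intro G
    obtain ⟨a, -, ha⟩ := hξ.eq_pow_of_pow_eq_one (ξ := G ξ)
      (by rw [← map_pow, hξ.pow_eq_one, map_one])
    exact ⟨a, ha.symm⟩
  have hfixK' : ∀ G : Ω ≃ₐ[F] Ω, (∀ y ∈ K, G (algebraMap E Ω y) = algebraMap E Ω y) →
      ∀ y ∈ K', G y = y := by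
    rintro G hG _ ⟨y, hy, rfl⟩
    exact hG y hy
  -- the subfield of degree `l` lies in `E`
  obtain ⟨C₀, hC₀⟩ := exists_sub (p := p) hl.pos hlp
  let φ₀ : CyclotomicField p ℚ →+* Ω :=
    (IsAlgClosed.lift : CyclotomicField p ℚ →ₐ[ℚ] Ω).toRingHom
  have hC₀E : ∀ c : C₀, ∃ y : E, algebraMap E Ω y = φ₀ c := by
    intro c
    have hgalE : IsGalois E Ω := by
      have : IsAlgClosure E Ω := ⟨inferInstance, inferInstance⟩
      have : Normal E Ω := IsAlgClosure.normal E Ω
      exact ⟨⟩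
    have h1 : φ₀ c ∈ (⊥ : IntermediateField E Ω) := by
      apply mem_of_forall_fixed
      intro τ _
      have hτ : ∀ y : E, τ (algebraMap E Ω y) = algebraMap E Ω y := fun y => τ.commutes y
      obtain ⟨a, ha⟩ := hexa (τ : Ω →+* Ω)
      have h2 := hact (τ.restrictScalars F)
        (hfixK' (τ.restrictScalars F) fun y _ => hτ y) a ha
      have h3 : (τ.restrictScalars F) b = b := by
        rw [← hβ]
        exact hτ β
      obtain ⟨σ, hσ1, hσ2⟩ := exists_sigma (τ : Ω →+* Ω) hξ φ₀ ha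
      have h4 := (fix_iff_pow hl.pos hlp C₀ hC₀ σ).2 ((hσ2 _).2 (h2.1 h3)) c c.2
      have h5 := hσ1 (c : CyclotomicField p ℚ)
      rw [h4] at h5
      exact h5
    rw [IntermediateField.mem_bot] at h1
    exact h1
  choose f₀ hf₀ using hC₀E
  let f : C₀ →+* E :=
    { toFun := f₀
      map_one' := hiinj (by rw [hf₀, map_one]; exact map_one φ₀)
      map_mul' := fun c d => hiinj (by
        rw [map_mul, hf₀, hf₀, hf₀]; exact map_mul φ₀ _ _)
      map_zero' := hiinj (by rw [hf₀, map_zero]; exact map_zero φ₀)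
      map_add' := fun c d => hiinj (by
        rw [map_add, hf₀, hf₀, hf₀]; exact map_add φ₀ _ _) }
  have hf : ∀ c : C₀, algebraMap E Ω (f c) = φ₀ c := hf₀
  refine ⟨⟨C₀, f, hC₀⟩, β, x, ?_, ?_, ?_, ?_, ?_⟩
  · rintro rfl
    rw [map_zero] at hβ
    exact hb0 hβ.symm
  · apply hiinj
    rw [map_pow, hβ, hxi, hbx]
  · intro g hg
    set G : Ω ≃ₐ[F] Ω := g.liftNormal Ω with hG
    have hGc : ∀ y : E, G (algebraMap E Ω y) = algebraMap E Ω (g y) := fun y =>
      g.liftNormal_commutes Ω y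
    obtain ⟨a, ha⟩ := hexa (G : Ω →+* Ω)
    have h1 := hact G (hfixK' G fun y hy => by rw [hGc, hg y hy]) a ha
    have h2 : g β = β ↔ G b = b := by
      rw [← hβ, hGc]
      exact ⟨fun h => by rw [h], fun h => hiinj h⟩
    rw [h2, h1]
    constructor
    · intro han C hC f' c
      obtain ⟨φ, hφ⟩ := exists_extend C ((algebraMap E Ω).comp f')
      obtain ⟨σ, hσ1, hσ2⟩ := exists_sigma (G : Ω →+* Ω) hξ φ ha
      have h4 := (fix_iff_pow hl.pos hlp C hC σ).2 ((hσ2 _).2 han) c c.2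
      have h5 := hσ1 (c : CyclotomicField p ℚ)
      rw [h4] at h5
      have h6 : G (algebraMap E Ω (f' c)) = algebraMap E Ω (f' c) := by
        have h7 : φ (c : CyclotomicField p ℚ) = algebraMap E Ω (f' c) := hφ c
        rw [← h7]
        exact h5
      rw [hGc] at h6
      exact hiinj h6
    · intro hfix
      obtain ⟨σ, hσ1, hσ2⟩ := exists_sigma (G : Ω →+* Ω) hξ φ₀ ha
      refine (hσ2 _).1 ((fix_iff_pow hl.pos hlp C₀ hC₀ σ).1 ?_)
      intro c hc
      have h3 := hfix C₀ hC₀ f ⟨c, hc⟩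
      apply φ₀.injective
      rw [← hσ1]
      have h4 := hf ⟨c, hc⟩
      change G (φ₀ c) = φ₀ c
      have h5 : φ₀ c = algebraMap E Ω (f ⟨c, hc⟩) := h4.symm
      rw [h5, hGc, h3]
  · intro w hw hd
    have h1 : (pullPrime (e.symm.toRingEquiv : K' →+* K) w).valuation K' (p : K') =
        WithZero.exp (-1 : ℤ) := by
      rw [val_iso e.symm.toRingEquiv w, map_natCast]
      exact hw
    apply hv1 _ h1
    rw [dvdVal_iso e.symm.toRingEquiv w]
    exact hd
  · intro w hw
    have h1 : (p : 𝓞 K') ∉ (pullPrime (e.symm.toRingEquiv : K' →+* K) w).asIdeal := by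
      rw [mem_pullPrime, map_natCast]
      exact hw
    have h2 := hv2 _ h1
    rw [dvdVal_iso e.symm.toRingEquiv w] at h2
    exact h2

theorem gk_of_rootClosed (K : IntermediateField F E) [NumberField K] {l : ℕ} (hl : l.Prime)
    (h : RootClosed l E) (hK : ∀ z : E, z ^ l = 1 → z ∈ K) : GK K l := fun _ hp hlp =>
  (gk_aux K hl hp hlp h hK).2

end Main

end Vale.Agent.P024.H114
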