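import Mathlib.NumberTheory.RamificationInertia.Valuation
import Vale.Agent.P024.H644.Defs

/-!
[G2], [G3]: the layers of a character with values in the units of `ℤ_p` are unramified outside
`p`, and the primes which are killed split completely.
-/

namespace Vale.Agent.P024.H114.Lay

open scoped NumberField
open IsDedekindDomain IsDedekindDomain.HeightOneSpectrum NumberField Vale.Agent.P024
  Vale.Agent.P024.TR

section Val

/-- If the inertia group is trivial then the valuations agree. -/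
theorem val_of_inertia {F L : Type*} [Field F] [NumberField F] [Field L] [NumberField L]
    [Algebra F L] [IsGalois F L] (v : HeightOneSpectrum (𝓞 F)) (w : HeightOneSpectrum (𝓞 L))
    [w.asIdeal.LiesOver v.asIdeal]
    (hin : ∀ σ : L ≃ₐ[F] L, (∀ x : 𝓞 L, w.valuation L (σ (x : L) - (x : L)) < 1) → σ = 1)
    (x : F) : w.valuation L (algebraMap F L x) = v.valuation F x := by
  have hv : v.asIdeal.IsMaximal := v.isMaximal
  have hw : w.asIdeal.IsMaximal := w.isMaximal
  have hfin : Finite (𝓞 F ⧸ v.asIdeal) := v.asIdeal.finiteQuotientOfFreeOfNeBot v.ne_bot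
  let _ : Field (𝓞 F ⧸ v.asIdeal) := Ideal.Quotient.field _
  have hperf : PerfectField v.asIdeal.ResidueField := by
    have hbij := Ideal.bijective_algebraMap_quotient_residueField v.asIdeal
    have : Finite v.asIdeal.ResidueField := Finite.of_surjective _ hbij.2
    infer_instance
  have hI : (w.asIdeal.inertia (L ≃ₐ[F] L)) = ⊥ := by
    rw [eq_bot_iff]
    intro σ hσ
    rw [Subgroup.mem_bot]
    refine hin σ fun x => ?_
    have h1 := hσ x
    have h2 : ((σ • x - x : 𝓞 L) : L) = σ (x : L) - (x : L) := by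
      exact map_sub (algebraMap (𝓞 L) L) (σ • x) x
    have h3 := (w.valuation_lt_one_iff_mem (K := L) (σ • x - x)).mpr h1
    rw [← h2]
    exact h3
  have hcard := Ideal.card_inertia_eq_ramificationIdxIn (G := L ≃ₐ[F] L) v.asIdeal w.asIdeal
  rw [hI] at hcard
  have h1 : Ideal.ramificationIdxIn v.asIdeal (𝓞 L) = 1 := by
    rw [← hcard]
    simp
  have h2 := Ideal.ramificationIdxIn_eq_ramificationIdx v.asIdeal w.asIdeal (L ≃ₐ[F] L)
  have h3 : v.asIdeal.ramificationIdx' w.asIdeal = 1 := by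
    rw [Ideal.ramificationIdx'_eq_ramificationIdx _ _ v.ne_bot, ← h2, h1]
  have h4 := valuation_liesOver L v w x
  rw [h3, pow_one] at h4
  exact h4.symm

end Val

section Open

/-- The kernel of the reduction modulo `p ^ k` is open. -/
theorem isOpen_ker_redu {p : ℕ} [hp : Fact p.Prime] (k : ℕ) :
    IsOpen ((redu (l := p) k).ker : Set ℤ_[p]ˣ) := by
  apply Subgroup.isOpen_of_mem_nhds (g := 1)
  have h1 : (Units.val ⁻¹' (Metric.ball (1 : ℤ_[p]) ((p : ℝ) ^ (-k : ℤ)))) ∈ nhds (1 : ℤ_[p]ˣ) := by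
    apply Units.continuous_val.continuousAt.preimage_mem_nhds
    apply Metric.ball_mem_nhds
    have : (0 : ℝ) < p := by exact_mod_cast hp.out.pos
    positivity
  refine Filter.mem_of_superset h1 ?_
  intro u hu
  rw [Set.mem_preimage, Metric.mem_ball, dist_eq_norm] at hu
  have h2 := (PadicInt.norm_le_pow_iff_mem_span_pow _ k).1 hu.le
  rw [← PadicInt.ker_toZModPow, RingHom.mem_ker, map_sub, map_one, sub_eq_zero] at h2
  rw [SetLike.mem_coe, MonoidHom.mem_ker]
  apply Units.ext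
  exact h2

theorem isOpen_ker_comp {p : ℕ} [hp : Fact p.Prime] {G : Type*} [Group G] [TopologicalSpace G]
    (ψ : G →* ℤ_[p]ˣ) (hψ : Continuous ψ) (k : ℕ) :
    IsOpen (((redu k).comp ψ).ker : Set G) :=
  (isOpen_ker_redu k).preimage hψ

end Open

section Inertia

variable {F E : Type*} [Field F] [NumberField F] [Field E] [Algebra F E] [IsGalois F E]
  [CharZero E] [Algebra.IsAlgebraic ℚ E]

/-- Inertia groups outside `p` are killed by the character up to torsion. -/
theorem inertia_killed {p : ℕ} [hp : Fact p.Prime] (hp2 : p ≠ 2) (ψ : (E ≃ₐ[F] E) →* ℤ_[p]ˣ)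
    (hψ : Continuous ψ) (O : ValuationSubring E) (hO : O ≠ ⊤) (hpO : (p : E) ∉ O.nonunits)
    (t : E ≃ₐ[F] E) (ht : Stab O t) (ht' : ActsPow O t 1) : ψ t ^ (p - 1) = 1 := by
  obtain ⟨v, hv⟩ := exists_center (K := F) O hO
  obtain ⟨s, hs, hs'⟩ := exists_frob O hO v hv
  set q := Nat.card (𝓞 F ⧸ v.asIdeal) with hq
  have hq1 : 1 < q := by
    have h := one_lt_absNorm v
    rw [Ideal.absNorm_apply] at h
    exact h
  set δ := s * t * s⁻¹ * (t ^ q)⁻¹ with hδ
  have hwild := theta_rel O s t q hs hs' ht ht'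
  have hψδ : ψ δ = ψ t * (ψ t ^ q)⁻¹ := by
    rw [hδ]
    simp only [map_mul, map_inv, map_pow]
    rw [mul_comm (ψ s) (ψ t), mul_inv_cancel_right]
  have hpn : ∀ n : ℕ, ((p ^ n : ℕ) : E) ∉ O.nonunits := by
    intro n hn
    rw [ValuationSubring.mem_nonunits_iff] at hn hpO
    rw [Nat.cast_pow, map_pow] at hn
    exact absurd hn (not_lt.2 (one_le_pow₀ (not_lt.1 hpO)))
  have h1 : ∀ k : ℕ, redu k ((ψ δ) ^ (p - 1)) = 1 := by
    intro k
    rcases Nat.eq_zero_or_pos k with rfl | hk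
    · have : Subsingleton (ZMod (p ^ 0)) := by rw [pow_zero]; infer_instance
      exact Subsingleton.elim _ _
    let χ : (E ≃ₐ[F] E) →* (ZMod (p ^ k))ˣ := (powMonoidHom (p - 1)).comp ((redu k).comp ψ)
    have hV : IsOpen (χ.ker : Set (E ≃ₐ[F] E)) := by
      refine Subgroup.isOpen_mono (H₁ := ((redu k).comp ψ).ker) ?_ (isOpen_ker_comp ψ hψ k)
      intro g hg
      rw [MonoidHom.mem_ker] at hg ⊢
      show ((redu k).comp ψ) g ^ (p - 1) = 1
      rw [hg, one_pow]
    have hmem : δ ^ (p ^ (k - 1)) ∈ χ.ker := by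
      rw [MonoidHom.mem_ker]
      have h2 : χ (δ ^ (p ^ (k - 1))) = (redu k (ψ δ)) ^ (p ^ (k - 1) * (p - 1)) := by
        rw [pow_mul]
        show (redu k (ψ (δ ^ (p ^ (k - 1))))) ^ (p - 1) = _
        rw [map_pow, map_pow]
      rw [h2, ← Nat.totient_prime_pow hp.out hk]
      have : NeZero (p ^ k) := ⟨(pow_pos hp.out.pos k).ne'⟩
      exact ZMod.pow_totient _
    have h3 := wild_mem O δ hwild (p ^ (k - 1)) (hpn _) χ.ker hV hmem
    rw [MonoidHom.mem_ker] at h3
    rw [map_pow]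
    exact h3
  have h2 : (ψ δ) ^ (p - 1) = 1 := redu_ext fun k => by rw [h1 k, map_one]
  rw [hψδ, mul_pow, inv_pow, ← pow_mul, mul_comm q, pow_mul] at h2
  have h3 : (ψ t ^ (p - 1)) ^ (q - 1) = 1 := by
    have h4 : (ψ t ^ (p - 1)) ^ q = ψ t ^ (p - 1) := by
      rw [mul_inv_eq_one] at h2
      exact h2.symm
    have h5 : (ψ t ^ (p - 1)) ^ (q - 1) * (ψ t ^ (p - 1)) = 1 * (ψ t ^ (p - 1)) := by
      rw [← pow_succ, one_mul, show q - 1 + 1 = q by omega, h4]
    exact mul_right_cancel h5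
  refine eq_one_of_pow_eq_one hp2 ?_ (m := q - 1) (by omega) h3
  have h6 : ∀ u : (ZMod (p ^ 1))ˣ, u ^ (p - 1) = 1 := by
    rw [pow_one]
    exact fun u => ZMod.units_pow_card_sub_one_eq_one p u
  rw [map_pow]
  exact h6 _

end Inertia

section Lift

variable {F : Type*} [Field F] {E : Type*} [Field E] [Algebra F E] [IsGalois F E]
  [CharZero E] [Algebra.IsAlgebraic ℚ E]

/-- Elements of a decomposition group of a finite layer lift to decomposition elements. -/
theorem exists_lift_decomp (L : IntermediateField F E) [NumberField L] [IsGalois F L]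
    (w : HeightOneSpectrum (𝓞 L)) (σ : L ≃ₐ[F] L)
    (hσ : ∀ x : 𝓞 L, x ∈ w.asIdeal ↔ σ • x ∈ w.asIdeal) (O : ValuationSubring E) (hO : O ≠ ⊤)
    (hOw : IsCenter O w) :
    ∃ t : E ≃ₐ[F] E, Stab O t ∧ ∀ x : L, t x = σ x := by
  have hσval : ∀ x : L, w.valuation L (σ x) ≤ 1 ↔ w.valuation L x ≤ 1 := by
    have hone : ∀ (σ : L ≃ₐ[F] L), (∀ x : 𝓞 L, x ∈ w.asIdeal ↔ σ • x ∈ w.asIdeal) →
        ∀ x : L, w.valuation L x ≤ 1 → w.valuation L (σ x) ≤ 1 := by
      intro σ hσ x hx
      obtain ⟨n, d, hd, hnd⟩ := exists_num_den w x hx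
      have h1 : σ x * ((σ • d : 𝓞 L) : L) = ((σ • n : 𝓞 L) : L) := by
        have h2 : ∀ y : 𝓞 L, ((σ • y : 𝓞 L) : L) = σ (y : L) := fun y => rfl
        rw [h2, h2, ← map_mul, hnd]
      have h3 : w.valuation L ((σ • d : 𝓞 L) : L) = 1 := by
        rw [w.valuation_of_algebraMap, w.intValuation_eq_one_iff]
        exact fun h => hd ((hσ d).2 h)
      have h4 := congrArg (w.valuation L) h1
      rw [map_mul, h3, mul_one] at h4
      rw [h4]
      exact w.valuation_le_one _
    have hσ' : ∀ x : 𝓞 L, x ∈ w.asIdeal ↔ σ⁻¹ • x ∈ w.asIdeal := by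
      intro x
      have h := hσ (σ⁻¹ • x)
      rw [smul_inv_smul] at h
      exact h.symm
    intro x
    refine ⟨fun h => ?_, hone σ hσ x⟩
    have h1 := hone σ⁻¹ hσ' (σ x) h
    rwa [← AlgEquiv.mul_apply, inv_mul_cancel, AlgEquiv.one_apply] at h1
  obtain ⟨s, hs⟩ := AlgEquiv.restrictNormalHom_surjective (F := F) (K₁ := L) E σ
  have hsx : ∀ x : L, s x = σ x := by
    intro x
    rw [← hs]
    exact (AlgEquiv.restrictNormal_commutes s L x).symm
  have hsx' : ∀ x : L, s⁻¹ x = ((σ⁻¹ x : L) : E) := by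
    intro x
    have h1 := hsx (σ⁻¹ x)
    rw [← AlgEquiv.mul_apply, mul_inv_cancel, AlgEquiv.one_apply] at h1
    rw [← h1, ← AlgEquiv.mul_apply, inv_mul_cancel, AlgEquiv.one_apply]
  have hmem : ∀ x : L, algebraMap L E x ∈ O ↔ algebraMap L E x ∈ conjO O s⁻¹ := by
    intro x
    rw [mem_conjO, inv_inv]
    have h1 : s (algebraMap L E x) = algebraMap L E (σ x) := hsx x
    rw [h1, (mem_iff_of_center O hO w hOw _).1, (mem_iff_of_center O hO w hOw _).1, hσval]
  obtain ⟨h, hh⟩ := exists_conj (M := L) O (conjO O s⁻¹) hO (conjO_ne_top hO _) hmem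
  refine ⟨s * h.restrictScalars F, ?_, ?_⟩
  · intro x
    have h1 := hh x
    rw [mem_conjO, inv_inv] at h1
    exact h1
  · intro x
    rw [AlgEquiv.mul_apply]
    have h1 : (h.restrictScalars F) (x : E) = x := h.commutes x
    rw [h1, hsx]

/-- Elements of an inertia group of a finite layer lift to inertia elements. -/
theorem exists_lift_inertia (L : IntermediateField F E) [NumberField L] [IsGalois F L]
    (w : HeightOneSpectrum (𝓞 L)) (σ : L ≃ₐ[F] L)
    (hσ : ∀ x : 𝓞 L, w.valuation L (σ (x : L) - (x : L)) < 1) (O : ValuationSubring E)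
    (hO : O ≠ ⊤) (hOw : IsCenter O w) :
    ∃ t : E ≃ₐ[F] E, Stab O t ∧ ActsPow O t 1 ∧ ∀ x : L, t x = σ x := by
  have hσ0 : ∀ x : 𝓞 L, σ • x - x ∈ w.asIdeal := by
    intro x
    rw [← w.valuation_lt_one_iff_mem (K := L)]
    have h2 : ((σ • x - x : 𝓞 L) : L) = σ (x : L) - (x : L) :=
      map_sub (algebraMap (𝓞 L) L) (σ • x) x
    have h3 := hσ x
    rw [← h2] at h3
    exact h3
  have hσ1 : ∀ x : 𝓞 L, x ∈ w.asIdeal ↔ σ • x ∈ w.asIdeal := by
    intro x
    constructor
    · intro h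
      have := w.asIdeal.add_mem (hσ0 x) h
      rwa [sub_add_cancel] at this
    · intro h
      have := w.asIdeal.sub_mem h (hσ0 x)
      rwa [sub_sub_cancel] at this
  obtain ⟨s, hs, hsx⟩ := exists_lift_decomp L w σ hσ1 O hO hOw
  have hM : ∀ x : L, algebraMap L E x ∈ O →
      s (algebraMap L E x) - algebraMap L E x ∈ O.nonunits := by
    intro x hx
    have hxv := ((mem_iff_of_center O hO w hOw x).1).1 hx
    obtain ⟨n, d, hd, hnd⟩ := exists_num_den w x hxv
    have h1 : s (algebraMap L E x) - algebraMap L E x = algebraMap L E (σ x - x) := by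
      rw [map_sub]
      congr 1
      exact hsx x
    rw [h1, (mem_iff_of_center O hO w hOw _).2]
    have h3 : w.valuation L (σ (d : L)) = 1 := by
      have h4 : σ (d : L) = ((σ • d : 𝓞 L) : L) := rfl
      rw [h4, w.valuation_of_algebraMap, w.intValuation_eq_one_iff]
      exact fun h => hd ((hσ1 d).2 h)
    have h5 : σ (d : L) * (σ x - x) = (σ (n : L) - (n : L)) - x * (σ (d : L) - (d : L)) := by
      rw [← hnd, map_mul]
      ring
    have h6 : w.valuation L (σ (d : L) * (σ x - x)) < 1 := by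
      rw [h5]
      refine lt_of_le_of_lt ((w.valuation L).map_sub _ _) (max_lt (hσ n) ?_)
      rw [map_mul]
      exact lt_of_le_of_lt (mul_le_of_le_one_left' hxv) (hσ d)
    rwa [map_mul, h3, one_mul] at h6
  obtain ⟨g, hg, hg'⟩ := exists_stab_lift (M := L) O hO (s : E ≃+* E) hs hM
  have hgF : Stab O (g.restrictScalars F) := hg
  refine ⟨s * (g.restrictScalars F)⁻¹, hs.mul hgF.inv, ?_, ?_⟩
  · intro y hy
    have hy' : (g.restrictScalars F)⁻¹ y ∈ O := (hgF.inv y).2 hy
    have h1 := hg' _ hy'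
    have h2 : g ((g.restrictScalars F)⁻¹ y) = y := by
      have : (g.restrictScalars F) ((g.restrictScalars F)⁻¹ y) = y := by
        rw [← AlgEquiv.mul_apply, mul_inv_cancel, AlgEquiv.one_apply]
      exact this
    rw [h2] at h1
    have h3 := O.nonunits.neg_mem h1
    rw [neg_sub] at h3
    rw [pow_one]
    exact h3
  · intro x
    have h1 : (g.restrictScalars F)⁻¹ (x : E) = x := by
      have h2 : (g.restrictScalars F) (x : E) = x := g.commutes x
      conv_lhs => rw [← h2]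
      rw [← AlgEquiv.mul_apply, inv_mul_cancel, AlgEquiv.one_apply]
    rw [AlgEquiv.mul_apply, h1, hsx]

end Lift

section Final

variable {F : Type*} [Field F] [NumberField F] {E : Type*} [Field E] [Algebra F E] [IsGalois F E]
  [CharZero E] [Algebra.IsAlgebraic ℚ E]

/-- [G2] the finite layers are unramified outside `p`: inertia groups are trivial -/
theorem inertia_trivial {p : ℕ} [hp : Fact p.Prime] (hp2 : p ≠ 2) (ψ : (E ≃ₐ[F] E) →* ℤ_[p]ˣ)
    (hψ : Continuous ψ) (L : IntermediateField F E) [NumberField L] [IsGalois F L]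
    (hL : ∀ s : E ≃ₐ[F] E, ψ s ^ (p - 1) = 1 → ∀ x : L, s x = x) (w : HeightOneSpectrum (𝓞 L))
    (hpw : (p : 𝓞 L) ∉ w.asIdeal) (σ : L ≃ₐ[F] L)
    (hσ : ∀ x : 𝓞 L, w.valuation L (σ (x : L) - (x : L)) < 1) : σ = 1 := by
  obtain ⟨O, hO, hOw⟩ := exists_valuationSubring_over (E := E) w
  obtain ⟨t, ht, ht', htσ⟩ := exists_lift_inertia L w σ hσ O hO hOw
  have hpO : (p : E) ∉ O.nonunits := by
    intro h
    apply hpw
    rw [hOw]
    simpa using h
  have h1 := hL t (inertia_killed hp2 ψ hψ O hO hpO t ht ht')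
  apply AlgEquiv.ext
  intro x
  apply Subtype.ext
  rw [← htσ, h1]
  rfl

/-- [G2] the finite layers are unramified outside `p`: valuations agree -/
theorem unramified {p : ℕ} [hp : Fact p.Prime] (hp2 : p ≠ 2) (ψ : (E ≃ₐ[F] E) →* ℤ_[p]ˣ)
    (hψ : Continuous ψ) (L : IntermediateField F E) [NumberField L] [IsGalois F L]
    (hL : ∀ s : E ≃ₐ[F] E, ψ s ^ (p - 1) = 1 → ∀ x : L, s x = x) (v : HeightOneSpectrum (𝓞 F))
    (w : HeightOneSpectrum (𝓞 L)) [w.asIdeal.LiesOver v.asIdeal]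
    (hpw : (p : 𝓞 L) ∉ w.asIdeal) (x : F) :
    w.valuation L (algebraMap F L x) = v.valuation F x :=
  val_of_inertia v w (inertia_trivial hp2 ψ hψ L hL w hpw) x

/-- [G3] the primes which are killed split completely in the finite layers -/
theorem split {A : Type*} [Group A] (ψ : (E ≃ₐ[F] E) →* A) (L : IntermediateField F E)
    [NumberField L] [IsGalois F L] (hL : ∀ s : E ≃ₐ[F] E, ψ s = 1 → ∀ x : L, s x = x)
    (v : HeightOneSpectrum (𝓞 F)) (hv : Kills ψ v) (w : HeightOneSpectrum (𝓞 L))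
    [w.asIdeal.LiesOver v.asIdeal] (σ : L ≃ₐ[F] L)
    (hσ : ∀ x : 𝓞 L, x ∈ w.asIdeal ↔ σ • x ∈ w.asIdeal) : σ = 1 := by
  obtain ⟨O, hO, hOw⟩ := exists_valuationSubring_over (E := E) w
  obtain ⟨t, ht, htσ⟩ := exists_lift_decomp L w σ hσ O hO hOw
  have hOv : IsCenter O v := by
    intro x
    have h1 : x ∈ v.asIdeal ↔ algebraMap (𝓞 F) (𝓞 L) x ∈ w.asIdeal := by
      rw [Ideal.over_def w.asIdeal v.asIdeal, Ideal.mem_under]
    rw [h1, hOw]
    rfl
  have h1 := hL t (hv O hOv t ht)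
  apply AlgEquiv.ext
  intro x
  apply Subtype.ext
  rw [← htσ, h1]
  rfl

end Final

end Vale.Agent.P024.H114.Lay
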