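import Vale.Agent.P024.M3.SpecG
import Vale.Agent.P024.H358.M3.G1
import Vale.Agent.P024.H114.Lay

/-!
The Galois side of the first inequality.
-/

namespace Vale.Agent.P024.H114.Lay

open scoped NumberField
open IsDedekindDomain IsDedekindDomain.HeightOneSpectrum NumberField Vale.Agent.P024
  Vale.Agent.P024.TR Vale.Agent.P024.M3 Vale.Agent.P024.M3G

theorem propG.{u} : PropG.{u} := by
  intro F _ _ p hp hp2 ψ hψ hinf v hpv hkill B
  have hchar : CharZero (AlgebraicClosure F) :=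
    charZero_of_injective_algebraMap (algebraMap F (AlgebraicClosure F)).injective
  have halg : Algebra.IsAlgebraic ℚ (AlgebraicClosure F) := Algebra.IsAlgebraic.trans ℚ F _
  obtain ⟨n, hn⟩ := exists_large hinf B
  obtain ⟨L, hfd, hgal, ⟨m, hm⟩, ⟨σ, hσ⟩, hcard, hL⟩ := layer hp2 hψ n
  have hNF : NumberField L := NumberField.of_module_finite F L
  have hL1 : ∀ s : AlgebraicClosure F ≃ₐ[F] AlgebraicClosure F, ψ s ^ (p - 1) = 1 →
      ∀ x : L, s x = x := by
    intro s hs
    rw [hL, layChar_apply, hs, map_one]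
  refine ⟨L, inferInstance, hNF, inferInstance, hgal, σ, hσ, ?_, ?_, ?_, ?_⟩
  · rw [hm]
    exact (hp.out.odd_of_ne_two hp2).pow
  · intro w hpw
    have hne : w.asIdeal.under (𝓞 F) ≠ ⊥ := Ideal.under_ne_bot _ w.ne_bot
    let v' : HeightOneSpectrum (𝓞 F) := ⟨w.asIdeal.under (𝓞 F), inferInstance, hne⟩
    have hlies : w.asIdeal.LiesOver v'.asIdeal := ⟨rfl⟩
    obtain ⟨x, hx⟩ := v'.valuation_exists_uniformizer F
    refine ⟨x, ?_⟩
    rw [unramified hp2 ψ hψ L hL1 v' w hpw x, hx]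
  · intro w hw τ hτ
    have hlies : w.asIdeal.LiesOver v.asIdeal := ⟨hw.symm⟩
    refine split ψ L (fun s hs => hL1 s (by rw [hs, one_pow])) v hkill w τ ?_
    intro x
    rw [← w.valuation_lt_one_iff_mem (K := L), ← w.valuation_lt_one_iff_mem (K := L)]
    have h1 : ((τ • x : 𝓞 L) : L) = τ (x : L) := rfl
    rw [← hτ]
    exact Iff.rfl
  · rw [hcard]
    exact hn

end Vale.Agent.P024.H114.Lay
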