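import Vale.Agent.P024.H114.Core

/-!
The maximal pro-`l` extension of a field containing a primitive `l`-th root of unity is closed under
`l`-th roots.
-/

namespace Vale.Agent.P024.H114

open IntermediateField

section Def

variable (l : ℕ) (F : Type*) [Field F]

/-- The maximal pro-`l` extension of `F`: the compositum, in an algebraic closure of `F`, of all
finite Galois extensions of `F` whose degree is a power of `l`. -/
noncomputable def MaxPro : IntermediateField F (AlgebraicClosure F) :=
  ⨆ L : {L : IntermediateField F (AlgebraicClosure F) // FiniteDimensional F L ∧ IsGalois F L ∧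
    ∃ n : ℕ, Module.finrank F L = l ^ n}, (L : IntermediateField F (AlgebraicClosure F))

end Def

section

variable {l : ℕ} {F : Type*} [Field F]

theorem exp_of_card {n : ℕ} (L : IntermediateField F (AlgebraicClosure F))
    [FiniteDimensional F L] [IsGalois F L] (h : Module.finrank F L = l ^ n)
    (σ : AlgebraicClosure F ≃ₐ[F] AlgebraicClosure F) (x : AlgebraicClosure F) (hx : x ∈ L) :
    (σ ^ (l ^ n)) x = x := by
  have h1 : (AlgEquiv.restrictNormalHom L (σ ^ (l ^ n)) : L ≃ₐ[F] L) = 1 := by
    rw [map_pow, ← h, ← IsGalois.card_aut_eq_finrank]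
    exact pow_card_eq_one'
  have h2 := AlgEquiv.restrictNormal_commutes (σ ^ (l ^ n)) L ⟨x, hx⟩
  have h3 : (σ ^ (l ^ n)).restrictNormal L = 1 := h1
  rw [h3] at h2
  exact h2.symm

theorem card_of_exp (hl : l.Prime) {n : ℕ} (L : IntermediateField F (AlgebraicClosure F))
    [FiniteDimensional F L] [IsGalois F L]
    (h : ∀ (σ : AlgebraicClosure F ≃ₐ[F] AlgebraicClosure F) (x : AlgebraicClosure F), x ∈ L →
      (σ ^ (l ^ n)) x = x) : ∃ k : ℕ, Module.finrank F L = l ^ k := by
  have hfl : Fact l.Prime := ⟨hl⟩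
  have h1 : IsPGroup l (L ≃ₐ[F] L) := by
    intro τ
    refine ⟨n, ?_⟩
    obtain ⟨σ, rfl⟩ := AlgEquiv.restrictNormalHom_surjective (F := F) (K₁ := L)
      (AlgebraicClosure F) τ
    rw [← map_pow]
    ext x
    have h2 := AlgEquiv.restrictNormal_commutes (σ ^ (l ^ n)) L x
    have h3 : algebraMap L (AlgebraicClosure F) ((σ ^ (l ^ n)).restrictNormal L x) =
        algebraMap L (AlgebraicClosure F) x := by
      rw [h2]
      exact h σ x x.2
    exact h3
  rw [← IsGalois.card_aut_eq_finrank]
  exact IsPGroup.iff_card.1 h1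

theorem finite_sup_exp {n m : ℕ} {L M : IntermediateField F (AlgebraicClosure F)}
    (hL : ∀ (σ : AlgebraicClosure F ≃ₐ[F] AlgebraicClosure F) (x : AlgebraicClosure F), x ∈ L →
      (σ ^ (l ^ n)) x = x)
    (hM : ∀ (σ : AlgebraicClosure F ≃ₐ[F] AlgebraicClosure F) (x : AlgebraicClosure F), x ∈ M →
      (σ ^ (l ^ m)) x = x) :
    ∀ (σ : AlgebraicClosure F ≃ₐ[F] AlgebraicClosure F) (x : AlgebraicClosure F), x ∈ L ⊔ M →
      (σ ^ (l ^ (n + m))) x = x := by
  intro σ x hx
  have hLN : L ≤ IntermediateField.fixedField (Subgroup.zpowers (σ ^ (l ^ (n + m)))) := by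
    rw [IntermediateField.le_iff_le, Subgroup.zpowers_le, IntermediateField.mem_fixingSubgroup_iff]
    intro y hy
    rw [add_comm, pow_add, pow_mul]
    exact hL _ y hy
  have hMN : M ≤ IntermediateField.fixedField (Subgroup.zpowers (σ ^ (l ^ (n + m)))) := by
    rw [IntermediateField.le_iff_le, Subgroup.zpowers_le, IntermediateField.mem_fixingSubgroup_iff]
    intro y hy
    rw [pow_add, pow_mul]
    exact hM _ y hy
  have h1 := (sup_le hLN hMN) hx
  rw [IntermediateField.mem_fixedField_iff] at h1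
  exact h1 _ (Subgroup.mem_zpowers _)

variable [CharZero F]

/-- the finite Galois extensions of `l`-power degree are directed -/
theorem mem_maxPro (hl : l.Prime) {x : AlgebraicClosure F} (hx : x ∈ MaxPro l F) :
    ∃ (L : IntermediateField F (AlgebraicClosure F)) (n : ℕ), FiniteDimensional F L ∧
      IsGalois F L ∧ Module.finrank F L = l ^ n ∧ x ∈ L := by
  set I := {L : IntermediateField F (AlgebraicClosure F) // FiniteDimensional F L ∧
    IsGalois F L ∧ ∃ n : ℕ, Module.finrank F L = l ^ n} with hI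
  have hne : Nonempty I := ⟨⟨⊥, inferInstance, inferInstance, 0, by
    rw [pow_zero, IntermediateField.finrank_bot]⟩⟩
  have hdir : Directed (· ≤ ·) fun L : I => (L : IntermediateField F (AlgebraicClosure F)) := by
    rintro ⟨L, hL1, hL2, n, hL3⟩ ⟨M, hM1, hM2, m, hM3⟩
    have h1 : FiniteDimensional F (L ⊔ M : IntermediateField F (AlgebraicClosure F)) :=
      IntermediateField.finiteDimensional_sup L M
    have h2 : IsGalois F (L ⊔ M : IntermediateField F (AlgebraicClosure F)) := ⟨⟩
    obtain ⟨k, hk⟩ := card_of_exp hl (L ⊔ M)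
      (finite_sup_exp (exp_of_card L hL3) (exp_of_card M hM3))
    exact ⟨⟨L ⊔ M, h1, h2, k, hk⟩, le_sup_left, le_sup_right⟩
  have h3 : (MaxPro l F : Set (AlgebraicClosure F)) =
      ⋃ L : I, ((L : IntermediateField F (AlgebraicClosure F)) : Set (AlgebraicClosure F)) :=
    IntermediateField.coe_iSup_of_directed hdir
  have h4 : x ∈ (MaxPro l F : Set (AlgebraicClosure F)) := hx
  rw [h3, Set.mem_iUnion] at h4
  obtain ⟨⟨L, hL1, hL2, n, hL3⟩, hL4⟩ := h4
  exact ⟨L, n, hL1, hL2, hL3, hL4⟩

omit [CharZero F] in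
theorem le_maxPro {L : IntermediateField F (AlgebraicClosure F)} (h1 : FiniteDimensional F L)
    (h2 : IsGalois F L) {n : ℕ} (h3 : Module.finrank F L = l ^ n) : L ≤ MaxPro l F :=
  le_iSup (fun L : {L : IntermediateField F (AlgebraicClosure F) // FiniteDimensional F L ∧
    IsGalois F L ∧ ∃ n : ℕ, Module.finrank F L = l ^ n} =>
      (L : IntermediateField F (AlgebraicClosure F))) ⟨L, h1, h2, n, h3⟩

instance isGalois_maxPro : IsGalois F (MaxPro l F) := by
  have h1 : Normal F (MaxPro l F) := by
    unfold MaxPro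
    have : ∀ L : {L : IntermediateField F (AlgebraicClosure F) // FiniteDimensional F L ∧
        IsGalois F L ∧ ∃ n : ℕ, Module.finrank F L = l ^ n},
        Normal F (L : IntermediateField F (AlgebraicClosure F)) := fun L => L.2.2.1.to_normal
    exact IntermediateField.normal_iSup F (AlgebraicClosure F) _
  exact ⟨⟩

theorem rootClosed_maxPro (hl : l.Prime) (hζ : ∃ ζ : F, IsPrimitiveRoot ζ l) :
    RootClosed l (MaxPro l F) := by
  obtain ⟨ζ, hζ⟩ := hζ
  refine ⟨⟨algebraMap F (MaxPro l F) ζ,
    hζ.map_of_injective (algebraMap F (MaxPro l F)).injective⟩, ?_⟩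
  have hζΩ : IsPrimitiveRoot (algebraMap F (AlgebraicClosure F) ζ) l :=
    hζ.map_of_injective (algebraMap F (AlgebraicClosure F)).injective
  have hnz : NeZero l := ⟨hl.ne_zero⟩
  rintro ⟨x, hx⟩
  obtain ⟨L, n, hL1, hL2, hL3, hL4⟩ := mem_maxPro hl hx
  obtain ⟨y, hy⟩ := IsAlgClosed.exists_pow_nat_eq x hl.pos
  have hLexp := exp_of_card L hL3
  rcases eq_or_ne x 0 with hx0 | hx0
  · refine ⟨0, ?_⟩
    rw [zero_pow hl.ne_zero]
    exact Subtype.ext hx0.symm
  -- the normal closure of `F(y)`
  set M : IntermediateField F (AlgebraicClosure F) :=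
    IntermediateField.adjoin F (Set.range fun σ : AlgebraicClosure F ≃ₐ[F] AlgebraicClosure F =>
      σ y) with hM
  have hyM : y ∈ M := IntermediateField.subset_adjoin _ _ ⟨1, rfl⟩
  have hfinrange : (Set.range fun σ : AlgebraicClosure F ≃ₐ[F] AlgebraicClosure F => σ y).Finite := by
    refine ((minpoly F y).rootSet_finite (AlgebraicClosure F)).subset ?_
    rintro _ ⟨σ, rfl⟩
    have hint : IsIntegral F y := Algebra.IsIntegral.isIntegral y
    rw [Polynomial.mem_rootSet]
    refine ⟨minpoly.ne_zero hint, ?_⟩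
    change Polynomial.aeval (σ y) (minpoly F y) = 0
    have h1 := Polynomial.aeval_algHom_apply (σ : AlgebraicClosure F →ₐ[F] AlgebraicClosure F) y
      (minpoly F y)
    rw [minpoly.aeval, map_zero] at h1
    exact h1
  have hMfin : FiniteDimensional F M := by
    have : Finite (Set.range fun σ : AlgebraicClosure F ≃ₐ[F] AlgebraicClosure F => σ y) :=
      hfinrange
    exact IntermediateField.finiteDimensional_adjoin fun z _ => Algebra.IsIntegral.isIntegral z
  have hMnorm : Normal F M := by
    rw [IntermediateField.normal_iff_forall_map_le']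
    intro σ
    rw [hM, IntermediateField.adjoin_map]
    apply IntermediateField.adjoin.mono
    rintro _ ⟨_, ⟨τ, rfl⟩, rfl⟩
    exact ⟨σ * τ, rfl⟩
  have hLnorm : ∀ (ρ : AlgebraicClosure F ≃ₐ[F] AlgebraicClosure F), ρ x ∈ L := by
    intro ρ
    have h1 := AlgEquiv.restrictNormal_commutes ρ L ⟨x, hL4⟩
    have h2 : ρ x = algebraMap L (AlgebraicClosure F) (ρ.restrictNormal L ⟨x, hL4⟩) := h1.symm
    rw [h2]
    exact (ρ.restrictNormal L ⟨x, hL4⟩).2
  have hMexp : ∀ (σ : AlgebraicClosure F ≃ₐ[F] AlgebraicClosure F) (z : AlgebraicClosure F),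
      z ∈ M → (σ ^ (l ^ (n + 1))) z = z := by
    intro σ z hz
    have hMN : M ≤ IntermediateField.fixedField (Subgroup.zpowers (σ ^ (l ^ (n + 1)))) := by
      rw [hM, IntermediateField.adjoin_le_iff]
      rintro _ ⟨ρ, rfl⟩
      change ρ y ∈ IntermediateField.fixedField (Subgroup.zpowers (σ ^ (l ^ (n + 1))))
      have h5 : (σ ^ (l ^ (n + 1))) (ρ y) = ρ y := by
        set τ := σ ^ (l ^ n) with hτ
        have h1 : τ (ρ x) = ρ x := hLexp σ (ρ x) (hLnorm ρ)
        have hρy : (ρ y) ^ l = ρ x := by rw [← map_pow, hy]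
        have hρy0 : ρ y ≠ 0 := by
          intro h0
          rw [h0, zero_pow hl.ne_zero] at hρy
          exact hx0 ((map_eq_zero ρ).1 hρy.symm)
        have h2 : (τ (ρ y) / ρ y) ^ l = 1 := by
          rw [div_pow, ← map_pow, hρy, h1, div_self]
          rw [← hρy]
          exact pow_ne_zero _ hρy0
        obtain ⟨i, -, hi⟩ := hζΩ.eq_pow_of_pow_eq_one h2
        have h3 : τ (ρ y) = (algebraMap F (AlgebraicClosure F) ζ) ^ i * ρ y := by
          rw [hi, div_mul_cancel₀ _ hρy0]
        have h4 : ∀ k : ℕ, (τ ^ k) (ρ y) =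
            (algebraMap F (AlgebraicClosure F) ζ) ^ (i * k) * ρ y := by
          intro k
          induction k with
          | zero => simp
          | succ k ih =>
            rw [pow_succ', AlgEquiv.mul_apply, ih, map_mul, map_pow, τ.commutes, h3]
            ring
        have h6 : σ ^ (l ^ (n + 1)) = τ ^ l := by rw [hτ, ← pow_mul, ← pow_succ]
        rw [h6, h4, mul_comm i l, pow_mul, hζΩ.pow_eq_one, one_pow, one_mul]
      have h7 : IntermediateField.adjoin F {ρ y} ≤
          IntermediateField.fixedField (Subgroup.zpowers (σ ^ (l ^ (n + 1)))) := by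
        rw [IntermediateField.le_iff_le, Subgroup.zpowers_le,
          IntermediateField.mem_fixingSubgroup_iff]
        apply fix_adjoin
        intro z hz
        rw [Set.mem_singleton_iff] at hz
        rw [hz]
        exact h5
      exact h7 (IntermediateField.mem_adjoin_simple_self F (ρ y))
    have h1 := hMN hz
    rw [IntermediateField.mem_fixedField_iff] at h1
    exact h1 _ (Subgroup.mem_zpowers _)
  have hMgal : IsGalois F M := ⟨⟩
  obtain ⟨k, hk⟩ := card_of_exp hl M hMexp
  refine ⟨⟨y, le_maxPro hMfin hMgal hk hyM⟩, Subtype.ext hy⟩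

end

end Vale.Agent.P024.H114
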