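import Vale.Agent.P024.Bdl.B2

/-!
Primes and valuations along an isomorphism of number fields.
-/

namespace Vale.Agent.P024.H114

open Vale.Agent.P024
open scoped NumberField
open IsDedekindDomain NumberField

section Iso

variable {K Z : Type*} [Field K] [NumberField K] [Field Z] [NumberField Z]

theorem pull_symm_pull (e : K ≃+* Z) (P : HeightOneSpectrum (𝓞 Z)) :
    pullPrime (e.symm : Z →+* K) (pullPrime (e : K →+* Z) P) = P := by
  apply HeightOneSpectrum.ext
  ext x
  rw [mem_pullPrime, mem_pullPrime]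
  have : RingOfIntegers.mapRingHom (e : K →+* Z)
      (RingOfIntegers.mapRingHom (e.symm : Z →+* K) x) = x := by
    apply RingOfIntegers.ext
    exact e.apply_symm_apply (x : Z)
  rw [this]

theorem val_iso_lt (e : K ≃+* Z) (P : HeightOneSpectrum (𝓞 Z)) (x : K) :
    (pullPrime (e : K →+* Z) P).valuation K x < 1 ↔ P.valuation Z (e x) < 1 := by
  refine ⟨fun h => valuation_pull_lt_one _ P h, fun h => ?_⟩
  have h1 : (pullPrime (e.symm : Z →+* K) (pullPrime (e : K →+* Z) P)).valuation Z (e x) < 1 := by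
    rwa [pull_symm_pull]
  have h2 := valuation_pull_lt_one _ _ h1
  simpa using h2

theorem val_iso_one (e : K ≃+* Z) (P : HeightOneSpectrum (𝓞 Z)) (x : K) :
    (pullPrime (e : K →+* Z) P).valuation K x = 1 ↔ P.valuation Z (e x) = 1 := by
  refine ⟨fun h => valuation_pull_eq_one _ P h, fun h => ?_⟩
  have h1 : (pullPrime (e.symm : Z →+* K) (pullPrime (e : K →+* Z) P)).valuation Z (e x) = 1 := by
    rwa [pull_symm_pull]
  have h2 := valuation_pull_eq_one _ _ h1
  simpa using h2

/-- an isomorphism of number fields carries the valuation of the pulled back prime to the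
valuation of the prime -/
theorem val_iso (e : K ≃+* Z) (P : HeightOneSpectrum (𝓞 Z)) (x : K) :
    (pullPrime (e : K →+* Z) P).valuation K x = P.valuation Z (e x) := by
  set v := pullPrime (e : K →+* Z) P with hv
  obtain ⟨π, hπ⟩ := v.valuation_exists_uniformizer K
  obtain ⟨ϖ, hϖ⟩ := P.valuation_exists_uniformizer Z
  have exp_ne : ∀ n : ℤ, (WithZero.exp n : WithZero (Multiplicative ℤ)) ≠ 0 :=
    fun n => WithZero.exp_ne_zero
  have hπ0 : π ≠ 0 := by
    rintro rfl
    rw [map_zero] at hπ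
    exact exp_ne _ hπ.symm
  have hϖ0 : ϖ ≠ 0 := by
    rintro rfl
    rw [map_zero] at hϖ
    exact exp_ne _ hϖ.symm
  -- `P (e π) = exp (-m)` with `m ≥ 1`
  have h1 : P.valuation Z (e π) < 1 := by
    rw [← val_iso_lt, ← hv, hπ, ← WithZero.exp_zero, WithZero.exp_lt_exp]
    norm_num
  have hne1 : P.valuation Z (e π) ≠ 0 := by
    rw [Ne, Valuation.zero_iff]
    simpa using hπ0
  obtain ⟨m, hm⟩ : ∃ m : ℤ, P.valuation Z (e π) = WithZero.exp m :=
    ⟨WithZero.log (P.valuation Z (e π)), (WithZero.exp_log hne1).symm⟩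
  have hm0 : m < 0 := by
    rw [hm, ← WithZero.exp_zero, WithZero.exp_lt_exp] at h1
    exact h1
  have h2 : v.valuation K (e.symm ϖ) < 1 := by
    rw [hv, val_iso_lt, e.apply_symm_apply, hϖ, ← WithZero.exp_zero, WithZero.exp_lt_exp]
    norm_num
  have hne2 : v.valuation K (e.symm ϖ) ≠ 0 := by
    rw [Ne, Valuation.zero_iff]
    simpa using hϖ0
  obtain ⟨k, hk⟩ : ∃ k : ℤ, v.valuation K (e.symm ϖ) = WithZero.exp k :=
    ⟨WithZero.log (v.valuation K (e.symm ϖ)), (WithZero.exp_log hne2).symm⟩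
  have hk0 : k < 0 := by
    rw [hk, ← WithZero.exp_zero, WithZero.exp_lt_exp] at h2
    exact h2
  -- general principle
  have key : ∀ (y : K) (n : ℤ), v.valuation K y = WithZero.exp n →
      P.valuation Z (e y) = WithZero.exp (-n * m) := by
    intro y n hy
    have h3 : v.valuation K (y * π ^ n) = 1 := by
      rw [map_mul, map_zpow₀, hy, hπ, ← WithZero.exp_zsmul, ← WithZero.exp_add]
      simp
    rw [hv, val_iso_one, map_mul, map_zpow₀, map_mul, map_zpow₀, hm, ← WithZero.exp_zsmul] at h3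
    have h4 : (WithZero.exp (n • m) : WithZero (Multiplicative ℤ)) * WithZero.exp (-n * m) = 1 := by
      rw [← WithZero.exp_add, smul_eq_mul]
      simp
    have h5 := exp_ne (n • m)
    apply mul_left_cancel₀ h5
    rw [h4, ← h3, mul_comm]
  have h6 := key _ _ hk
  rw [e.apply_symm_apply, hϖ] at h6
  have h7 : (-1 : ℤ) = -k * m := WithZero.exp_injective h6
  have hm1 : m = -1 := by
    have h8 : k * m = 1 := by linarith
    rcases Int.eq_one_or_neg_one_of_mul_eq_one' h8 with ⟨h, h'⟩ | ⟨h, h'⟩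
    · omega
    · exact h'
  rcases eq_or_ne x 0 with rfl | hx
  · rw [map_zero, map_zero, map_zero]
  have hne3 : v.valuation K x ≠ 0 := by
    rw [Ne, Valuation.zero_iff]
    exact hx
  obtain ⟨n, hn⟩ : ∃ n : ℤ, v.valuation K x = WithZero.exp n :=
    ⟨WithZero.log (v.valuation K x), (WithZero.exp_log hne3).symm⟩
  rw [key x n hn, hn, hm1]
  simp

theorem dvdVal_iso (e : K ≃+* Z) (P : HeightOneSpectrum (𝓞 Z)) (l : ℕ) (x : K) :
    DvdVal (pullPrime (e : K →+* Z) P) l x ↔ DvdVal P l (e x) := by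
  constructor
  · rintro ⟨z, hz⟩
    refine ⟨e z, ?_⟩
    rw [val_iso_one, map_mul, map_pow] at hz
    exact hz
  · rintro ⟨z, hz⟩
    refine ⟨e.symm z, ?_⟩
    rw [val_iso_one, map_mul, map_pow, e.apply_symm_apply]
    exact hz

end Iso

end Vale.Agent.P024.H114
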